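import Vale.Agent.P256.Cubic.Spinor

/-!
Trilinear forms, and the spinor representation of every cubic that is nonnegative on the cone.
-/

namespace Vale.Agent.P256.Cubic

/-- The cubic `y ↦ ∑ i j l, M i j l * y i * y j * y l`. -/
def tri {n : ℕ} (M : Fin n → Fin n → Fin n → ℝ) (y : Fin n → ℝ) : ℝ :=
  ∑ i, ∑ j, ∑ l, M i j l * (y i * y j * y l)

/-- The squared Euclidean length. -/
def sumSq {n : ℕ} (y : Fin n → ℝ) : ℝ := ∑ i, y i ^ 2

/-- The trilinear form composed with a linear map given by its matrix. -/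
def triComp {n m : ℕ} (M : Fin n → Fin n → Fin n → ℝ) (L : Matrix (Fin n) (Fin m) ℝ) :
    Fin m → Fin m → Fin m → ℝ :=
  fun a b c => ∑ i, ∑ j, ∑ l, M i j l * (L i a * L j b * L l c)

lemma tri_triComp {n m : ℕ} (M : Fin n → Fin n → Fin n → ℝ) (L : Matrix (Fin n) (Fin m) ℝ)
    (x : Fin m → ℝ) : tri (triComp M L) x = tri M (L.mulVec x) := by
  have e1 : ∀ a b c, (triComp M L) a b c * (x a * x b * x c) =
      ∑ i, ∑ j, ∑ l, M i j l * ((L i a * x a) * (L j b * x b) * (L l c * x c)) := fun a b c => by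
    simp only [triComp, Finset.sum_mul]
    refine Finset.sum_congr rfl fun i _ => Finset.sum_congr rfl fun j _ =>
      Finset.sum_congr rfl fun l _ => by ring
  simp only [tri, e1, Matrix.mulVec, dotProduct]
  calc ∑ a, ∑ b, ∑ c, ∑ i, ∑ j, ∑ l, M i j l * ((L i a * x a) * (L j b * x b) * (L l c * x c))
      = ∑ i, ∑ j, ∑ l, ∑ a, ∑ b, ∑ c,
          M i j l * ((L i a * x a) * (L j b * x b) * (L l c * x c)) := by
        simp only [← Fintype.sum_prod_type']
        exact Fintype.sum_equiv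
          ⟨fun p => (p.2.2.2.1, p.2.2.2.2.1, p.2.2.2.2.2, p.1, p.2.1, p.2.2.1),
            fun p => (p.2.2.2.1, p.2.2.2.2.1, p.2.2.2.2.2, p.1, p.2.1, p.2.2.1),
            fun _ => rfl, fun _ => rfl⟩ _ _ (fun _ => rfl)
    _ = _ := by
        refine Finset.sum_congr rfl fun i _ => Finset.sum_congr rfl fun j _ =>
          Finset.sum_congr rfl fun l _ => ?_
        simp only [Finset.sum_mul_sum]
        simp only [Finset.sum_mul, Finset.mul_sum]
        refine Finset.sum_congr rfl fun a _ => ?_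
        rw [Finset.sum_comm]

lemma tri_smul {n : ℕ} (M : Fin n → Fin n → Fin n → ℝ) (t : ℝ) (y : Fin n → ℝ) :
    tri M (t • y) = t ^ 3 * tri M y := by
  simp only [tri, Finset.mul_sum, Pi.smul_apply, smul_eq_mul]
  exact Finset.sum_congr rfl fun i _ => Finset.sum_congr rfl fun j _ =>
    Finset.sum_congr rfl fun l _ => by ring

lemma continuous_tri {n : ℕ} (M : Fin n → Fin n → Fin n → ℝ) : Continuous (tri M) := by
  unfold tri; fun_prop

/-- The reflection exchanging the third axis with a given unit vector. -/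
noncomputable def reflect (n : Fin 3 → ℝ) (v : Fin 3 → ℝ) : Fin 3 → ℝ :=
  fun i => v i - 2 * (((![0, 0, 1] : Fin 3 → ℝ) - n) ⬝ᵥ v) / (((![0, 0, 1] : Fin 3 → ℝ) - n) ⬝ᵥ ((![0, 0, 1] : Fin 3 → ℝ) - n)) *
    ((![0, 0, 1] : Fin 3 → ℝ) - n) i

lemma reflect_facts (n : Fin 3 → ℝ) (hn : sumSq n = 1) :
    (∀ v, sumSq (reflect n v) = sumSq v) ∧ (∀ v, reflect n (reflect n v) = v) ∧
      reflect n ![0, 0, 1] = n := by
  set w : Fin 3 → ℝ := (![0, 0, 1] : Fin 3 → ℝ) - n with hw
  by_cases h0 : w ⬝ᵥ w = 0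
  · have hw0 : w = 0 := dotProduct_self_eq_zero.1 h0
    have hid : ∀ v, reflect n v = v := fun v => funext fun i => by
      simp only [reflect, ← hw, hw0]; simp
    exact ⟨fun v => by rw [hid], fun v => by rw [hid, hid],
      by rw [hid]; exact sub_eq_zero.1 hw0⟩
  have hr : ∀ v, reflect n v = v - (2 * (w ⬝ᵥ v) / (w ⬝ᵥ w)) • w := fun v => funext fun i => by
    simp only [reflect, Pi.sub_apply, Pi.smul_apply, smul_eq_mul, hw]
  have hss : ∀ v : Fin 3 → ℝ, sumSq v = v ⬝ᵥ v := fun v => by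
    simp [sumSq, dotProduct, sq]
  refine ⟨fun v => ?_, fun v => ?_, ?_⟩
  · rw [hss, hss, hr]
    simp only [sub_dotProduct, dotProduct_sub, smul_dotProduct, dotProduct_smul, smul_eq_mul,
      dotProduct_comm v w]
    field_simp
    ring
  · rw [hr, hr]
    simp only [dotProduct_sub, dotProduct_smul, smul_eq_mul]
    rw [show 2 * (w ⬝ᵥ v - 2 * (w ⬝ᵥ v) / (w ⬝ᵥ w) * (w ⬝ᵥ w)) / (w ⬝ᵥ w) =
      -(2 * (w ⬝ᵥ v) / (w ⬝ᵥ w)) by field_simp; ring]
    simp
  · rw [hr]
    have hww : w ⬝ᵥ w = 2 * (w ⬝ᵥ ![0, 0, 1]) := by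
      simp [sumSq, Fin.sum_univ_three] at hn
      simp [hw, dotProduct, Fin.sum_univ_three, Matrix.vecHead, Matrix.vecTail]
      linear_combination hn
    rw [← hww, div_self h0, one_smul, hw, sub_sub_cancel]

lemma reflect_linear (n : Fin 3 → ℝ) : IsLinearMap ℝ (reflect n) where
  map_add x y := funext fun i => by simp [reflect, dotProduct_add]; ring
  map_smul c x := funext fun i => by simp [reflect, dotProduct_smul]; ring

/-- Every cubic nonnegative on the upper cone is, after an orthogonal change of the space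
variables, a sum of fifteen spinor squares plus a multiple of the quadratic form of the cone. -/
theorem cone_cubic_general (K : Fin 4 → Fin 4 → Fin 4 → ℝ)
    (hK : ∀ (u : ℝ) (v : Fin 3 → ℝ), u ^ 2 = sumSq v → 0 ≤ u → 0 ≤ tri K (Fin.cons u v)) :
    ∃ (R : (Fin 3 → ℝ) →ₗ[ℝ] (Fin 3 → ℝ)) (H : Fin 15 → Fin 4 → Fin 4 → ℝ) (l : Fin 4 → ℝ),
      (∀ v, sumSq (R v) = sumSq v) ∧ (∀ v, R (R v) = v) ∧
      ∀ u a b c : ℝ, tri K (Fin.cons u (R ![a, b, c])) =
        ∑ j, spin u a b c (lin4 (H j) u a b c) +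
          (l 0 * u + l 1 * a + l 2 * b + l 3 * c) * (u ^ 2 - (a ^ 2 + b ^ 2 + c ^ 2)) := by
  have hKc : IsCompact {v : Fin 3 → ℝ | sumSq v = 1} := by
    refine (isCompact_Icc (a := (-1 : Fin 3 → ℝ)) (b := 1)).of_isClosed_subset
      (isClosed_eq (by unfold sumSq; fun_prop) continuous_const) fun v hv => ?_
    have hv' : ∀ i, v i ^ 2 ≤ 1 := fun i =>
      (Finset.single_le_sum (fun j _ => sq_nonneg (v j)) (Finset.mem_univ i)).trans_eq hv
    exact ⟨fun i => by have := hv' i; simp only [Pi.neg_apply, Pi.one_apply]; nlinarith,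
      fun i => by have := hv' i; simp only [Pi.one_apply]; nlinarith⟩
  obtain ⟨n, hn, hmin⟩ := hKc.exists_isMinOn (f := fun v => tri K (Fin.cons 1 v))
    ⟨![0, 0, 1], by simp [sumSq, Fin.sum_univ_three]⟩
    ((continuous_tri K).comp (continuous_const.finCons continuous_id)).continuousOn
  set m := tri K (Fin.cons 1 n) with hm
  have hn1 : sumSq n = 1 := hn
  have hm0 : 0 ≤ m := hK 1 n (by rw [hn1]; norm_num) zero_le_one
  obtain ⟨hRn, hRR, hR3⟩ := reflect_facts n hn1
  set R : (Fin 3 → ℝ) →ₗ[ℝ] (Fin 3 → ℝ) := (reflect_linear n).mk' _ with hR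
  let Lm : (Fin 4 → ℝ) →ₗ[ℝ] (Fin 4 → ℝ) :=
    { toFun := fun y => Fin.cons (y 0) (R (Fin.tail y))
      map_add' := fun x y => funext fun i => by
        refine Fin.cases ?_ (fun j => ?_) i
        · simp
        · simp only [Fin.cons_succ, Pi.add_apply]
          rw [show Fin.tail (x + y) = Fin.tail x + Fin.tail y from rfl, map_add]; rfl
      map_smul' := fun t x => funext fun i => by
        refine Fin.cases ?_ (fun j => ?_) i
        · simp
        · simp only [Fin.cons_succ, Pi.smul_apply, RingHom.id_apply]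
          rw [show Fin.tail (t • x) = t • Fin.tail x from rfl, map_smul]; rfl }
  set k : Fin 20 → ℝ := triCoeff (triComp K (LinearMap.toMatrix' Lm)) with hk
  have hkv : ∀ u a b c, cform k u a b c = tri K (Fin.cons u (R ![a, b, c])) := fun u a b c => by
    have e : cform k u a b c = tri (triComp K (LinearMap.toMatrix' Lm)) ![u, a, b, c] :=
      cform_triCoeff _ u a b c
    rw [e, tri_triComp, LinearMap.toMatrix'_mulVec]
    rfl
  set k' : Fin 20 → ℝ := k - Pi.single 0 m with hk'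
  have hk'v : ∀ u a b c, cform k' u a b c = cform k u a b c - m * u ^ 3 := fun u a b c => by
    rw [hk', cform_sub]; simp [cform]
  have hRs : ∀ a b c, sumSq (R ![a, b, c]) = a ^ 2 + b ^ 2 + c ^ 2 := fun a b c => by
    rw [hR, IsLinearMap.mk'_apply, hRn]; simp [sumSq, Fin.sum_univ_three]
  have hpos : ∀ u a b c : ℝ, u ^ 2 = a ^ 2 + b ^ 2 + c ^ 2 → 0 ≤ u → 0 ≤ cform k' u a b c := by
    intro u a b c he hu
    rw [hk'v, hkv]
    rcases eq_or_lt_of_le hu with h | h
    · have hz : R ![a, b, c] = 0 := by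
        have : sumSq (R ![a, b, c]) = 0 := by rw [hRs]; nlinarith
        exact funext fun i => (pow_eq_zero_iff two_ne_zero).1
          ((Finset.sum_eq_zero_iff_of_nonneg fun j _ => sq_nonneg _).1 this i (Finset.mem_univ i))
      have hz' : (Fin.cons u (R ![a, b, c]) : Fin 4 → ℝ) = 0 := by
        rw [hz, ← h]
        exact funext fun i => Fin.cases rfl (fun j => rfl) i
      rw [hz', ← h]; simp [tri]
    · have e : (Fin.cons u (R ![a, b, c]) : Fin 4 → ℝ) = u • Fin.cons 1 (u⁻¹ • R ![a, b, c]) :=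
        funext fun i => Fin.cases (by simp) (fun j => by simp [h.ne']) i
      have hu1 : sumSq (u⁻¹ • R ![a, b, c]) = 1 := by
        have : sumSq (u⁻¹ • R ![a, b, c]) = u⁻¹ ^ 2 * sumSq (R ![a, b, c]) := by
          simp [sumSq, mul_pow, Finset.mul_sum]
        rw [this, hRs, ← he]; field_simp
      have := isMinOn_iff.1 hmin _ hu1
      rw [e, tri_smul]
      nlinarith [mul_le_mul_of_nonneg_left this (pow_nonneg hu 3)]
  have hzero : cform k' 1 0 0 1 = 0 := by
    rw [hk'v, hkv, hR, IsLinearMap.mk'_apply, hR3, ← hm]; ring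
  obtain ⟨H, l, hH⟩ := cone_cubic k' hpos hzero
  set s := Real.sqrt (m / 4) with hs
  have hs2 : s ^ 2 = m / 4 := Real.sq_sqrt (by linarith)
  let E : Fin 4 → Fin 4 → Fin 4 → ℝ :=
    ![![![s, 0, 0, 0], 0, 0, 0], ![0, ![s, 0, 0, 0], 0, 0], ![0, 0, ![s, 0, 0, 0], 0],
      ![0, 0, 0, ![s, 0, 0, 0]]]
  refine ⟨R, Fin.append H E, l, fun v => by rw [hR, IsLinearMap.mk'_apply, hRn],
    fun v => by simp only [hR, IsLinearMap.mk'_apply, hRR], fun u a b c => ?_⟩
  have e := hH u a b c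
  rw [hk'v, hkv] at e
  have hE : ∑ j, spin u a b c (lin4 (E j) u a b c) = m * u ^ 3 := by
    simp [E, Fin.sum_univ_four, spin, lin4]
    linear_combination 4 * u ^ 3 * hs2
  rw [Fin.sum_univ_add (a := 11) (b := 4)]
  simp only [Fin.append_left, Fin.append_right]
  linarith

end Vale.Agent.P256.Cubic
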