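import Vale.Agent.P256.Cubic.Limit
import Vale.Agent.P256.Iso.Main
import Vale.Agent.P256.Iso.Product

/-!
Every depressed cubic cone over four variables is a spectrahedral shadow.
-/

namespace Vale.Agent.P256.Cubic

open Matrix MvPolynomial

lemma tri_neg {n : ℕ} (M : Fin n → Fin n → Fin n → ℝ) (y : Fin n → ℝ) :
    tri M (-y) = -tri M y := by
  rw [show -y = (-1 : ℝ) • y by simp, tri_smul]; ring

lemma sumSq_neg {n : ℕ} (y : Fin n → ℝ) : sumSq (-y) = sumSq y := by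
  simp [sumSq]

lemma pcub_tendsto {n : ℕ} (M : Fin n → Fin n → Fin n → ℝ) (m : ℝ) (y : Fin n → ℝ) :
    ∃ T, m < T ∧ Real.sqrt (sumSq y) ≤ T ∧ 0 ≤ pcub M T y := by
  set ρ := Real.sqrt (sumSq y) with hρ
  have hρ2 : ρ ^ 2 = sumSq y := Real.sq_sqrt (sumSq_nonneg y)
  have hρ0 : 0 ≤ ρ := Real.sqrt_nonneg _
  set T := 2 * ρ + 8 * |tri M y| + 1 + |m| with hT
  have hT1 : 1 ≤ T := by linarith [abs_nonneg (tri M y), abs_nonneg m]
  have hTρ : 2 * ρ ≤ T := by linarith [abs_nonneg (tri M y), abs_nonneg m]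
  refine ⟨T, by linarith [le_abs_self m, abs_nonneg (tri M y)], by linarith, ?_⟩
  have h1 : 4 * sumSq y ≤ T ^ 2 := by nlinarith
  have h2 : T ≤ T ^ 3 := by nlinarith [mul_le_mul hT1 hT1 zero_le_one (by linarith)]
  rw [pcub]
  nlinarith [neg_abs_le (tri M y), abs_nonneg m]

/-- The cone is the set where no root exceeds `m`. -/
lemma inCone_iff_roots {n : ℕ} {M : Fin n → Fin n → Fin n → ℝ} (hM : Bounded3 M) (m : ℝ)
    (y : Fin n → ℝ) : InCone M m y ↔ ∀ s, pcub M s y = 0 → s ≤ m := by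
  constructor
  · rintro ⟨hm, hmy, hp⟩ s hs
    by_contra hlt
    push Not at hlt
    linarith [pcub_lt M hm hmy hlt]
  · intro h
    set ρ := Real.sqrt (sumSq y) with hρ
    have hρ2 : ρ ^ 2 = sumSq y := Real.sq_sqrt (sumSq_nonneg y)
    have hρ0 : 0 ≤ ρ := Real.sqrt_nonneg _
    have hc : Continuous fun s => pcub M s y := continuous_pcub M y
    have hρp : pcub M ρ y ≤ 0 := pcub_sphere hM hρ0 hρ2.symm
    obtain ⟨T, hmT, hρT, hT⟩ := pcub_tendsto M m y
    obtain ⟨s, hs, hs0⟩ := intermediate_value_Icc hρT hc.continuousOn ⟨hρp, hT⟩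
    have hρm : ρ ≤ m := hs.1.trans (h s hs0)
    refine ⟨hρ0.trans hρm, hρ2 ▸ pow_le_pow_left₀ hρ0 hρm 2, ?_⟩
    by_contra hneg
    push Not at hneg
    obtain ⟨s, hs, hs0⟩ := intermediate_value_Ioc hmT.le hc.continuousOn ⟨hneg, hT⟩
    exact absurd (h s hs0) (not_le.2 hs.1)

/-- A depressed cubic with real coefficients bounded as for three real roots has only real roots. -/
lemma real_roots {Q c : ℝ} (hQ : 0 ≤ Q) (hc : c ^ 2 ≤ Q ^ 3) (s : ℂ)
    (hs : s ^ 3 - 3 * (Q : ℂ) * s - 2 * (c : ℂ) = 0) : s.im = 0 := by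
  by_contra hb
  have hre := congrArg Complex.re hs
  have him := congrArg Complex.im hs
  simp [pow_succ, Complex.mul_re, Complex.mul_im] at hre him
  set a := s.re
  set b := s.im
  have hb2 : b ^ 2 = 3 * a ^ 2 - 3 * Q := by
    refine mul_left_cancel₀ hb ?_
    linear_combination -him
  have hbp : 0 < b ^ 2 := by positivity
  have hc' : c = a * (3 * Q - 4 * a ^ 2) := by
    linear_combination (-1 / 2 : ℝ) * hre - (3 / 2 : ℝ) * a * hb2
  have h1 : Q ^ 2 < (4 * a ^ 2 - 3 * Q) ^ 2 := by nlinarith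
  have h2 : Q * Q ^ 2 ≤ Q * (4 * a ^ 2 - 3 * Q) ^ 2 := by
    exact mul_le_mul_of_nonneg_left h1.le hQ
  have h3 : Q * (4 * a ^ 2 - 3 * Q) ^ 2 < a ^ 2 * (4 * a ^ 2 - 3 * Q) ^ 2 :=
    mul_lt_mul_of_pos_right (by linarith) (lt_of_le_of_lt (sq_nonneg Q) h1)
  rw [hc'] at hc
  nlinarith

/-- The depressed cubic as a polynomial in five variables. -/
noncomputable def pcubPoly (M : Fin 4 → Fin 4 → Fin 4 → ℝ) : MvPolynomial (Fin 5) ℝ :=
  X 0 ^ 3 - C 3 * (X 0 * ∑ i : Fin 4, X i.succ ^ 2) +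
    C 2 * ∑ i : Fin 4, ∑ j : Fin 4, ∑ l : Fin 4, C (M i j l) * (X i.succ * X j.succ * X l.succ)

lemma eval_pcubPoly (M : Fin 4 → Fin 4 → Fin 4 → ℝ) (x : Fin 5 → ℝ) :
    eval x (pcubPoly M) = pcub M (x 0) (Fin.tail x) := by
  simp [pcubPoly, pcub, tri, sumSq, Fin.tail]
  ring

lemma pcubPoly_hom (M : Fin 4 → Fin 4 → Fin 4 → ℝ) : (pcubPoly M).IsHomogeneous 3 := by
  have h1 : ∀ i : Fin 5, (X i : MvPolynomial (Fin 5) ℝ).IsHomogeneous 1 :=
    fun i => isHomogeneous_X ℝ i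
  refine IsHomogeneous.add (IsHomogeneous.sub (by simpa using (h1 0).pow 3) ?_) ?_
  · exact IsHomogeneous.C_mul
      ((h1 0).mul (IsHomogeneous.sum _ _ 2 fun i _ => by simpa using (h1 i.succ).pow 2)) 3
  · refine IsHomogeneous.C_mul (IsHomogeneous.sum _ _ 3 fun i _ => IsHomogeneous.sum _ _ 3 fun j _ =>
      IsHomogeneous.sum _ _ 3 fun l _ => IsHomogeneous.C_mul (((h1 _).mul (h1 _)).mul (h1 _)) _) 2

/-- The distinguished direction. -/
def axis : Fin 5 → ℝ := Fin.cons 1 0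

lemma line_pcubPoly (M : Fin 4 → Fin 4 → Fin 4 → ℝ) (x : Fin 5 → ℝ) (t : ℝ) :
    eval (t • axis - x) (pcubPoly M) = -pcub M (x 0 - t) (Fin.tail x) := by
  rw [eval_pcubPoly]
  have : Fin.tail (t • axis - x) = -Fin.tail x := funext fun i => by simp [Fin.tail, axis]
  rw [this, pcub, pcub, sumSq_neg, tri_neg]
  simp [axis]
  ring

lemma pcubPoly_hyperbolic {M : Fin 4 → Fin 4 → Fin 4 → ℝ} (hM : Bounded3 M) :
    IsHyperbolicPoly (pcubPoly M) axis := by
  refine ⟨⟨3, pcubPoly_hom M⟩, ?_, fun x z hz => ?_⟩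
  · rw [eval_pcubPoly]; simp [axis, pcub, sumSq, tri, Fin.tail]
  · set s := z - (x 0 : ℂ) with hs
    have e : s ^ 3 - 3 * ((sumSq (Fin.tail x) : ℝ) : ℂ) * s -
        2 * ((tri M (Fin.tail x) : ℝ) : ℂ) = 0 := by
      rw [← hz, hs]
      simp [pcubPoly, axis, sumSq, tri, Fin.tail, map_ofNat, Finset.sum_neg_distrib]
      ring
    have := real_roots (sumSq_nonneg _) (hM _) s e
    simpa [hs] using this

lemma cone_pcubPoly {M : Fin 4 → Fin 4 → Fin 4 → ℝ} (hM : Bounded3 M) :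
    hyperbolicityCone (pcubPoly M) axis = {x | InCone M (x 0) (Fin.tail x)} := by
  ext x
  simp only [hyperbolicityCone, Set.mem_ofPred_eq, line_pcubPoly, neg_eq_zero,
    inCone_iff_roots hM]
  constructor
  · intro h s hs
    have := h (x 0 - s) (by rwa [sub_sub_cancel])
    linarith
  · intro h t ht
    linarith [h _ ht]

/-- Without nodes the cone has smooth boundary. -/
lemma strict_shadow {M : Fin 4 → Fin 4 → Fin 4 → ℝ} (hM : Bounded3 M)
    (hs : ∀ y, y ≠ 0 → tri M y ^ 2 ≠ sumSq y ^ 3) :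
    IsSpectrahedralShadow {x : Fin 5 → ℝ | InCone M (x 0) (Fin.tail x)} := by
  rw [← cone_pcubPoly hM]
  refine Iso.cone_shadow (pcubPoly_hyperbolic hM) (fun z hz hz' => ?_) fun z hz hzne hz0 => ?_
  · rw [cone_pcubPoly hM] at hz hz'
    obtain ⟨h1, h2, -⟩ := hz
    obtain ⟨h3, -, -⟩ := hz'
    have hm : z 0 = 0 := le_antisymm (by simpa using h3) h1
    rw [hm] at h2
    have ht : Fin.tail z = 0 :=
      sumSq_eq_zero.1 (le_antisymm (by simpa using h2) (sumSq_nonneg _))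
    rw [← Fin.cons_self_tail z, hm, ht]
    exact funext fun i => Fin.cases rfl (fun j => rfl) i
  · left
    rw [cone_pcubPoly hM] at hz
    obtain ⟨hm, hmy, -⟩ := hz
    rw [eval_pcubPoly] at hz0
    refine ⟨0, ?_⟩
    have hd : eval z (pderiv 0 (pcubPoly M)) = 3 * (z 0 ^ 2 - sumSq (Fin.tail z)) := by
      simp [pcubPoly, sumSq, Fin.tail, Derivation.leibniz, Derivation.leibniz_pow, pderiv_X,
        Fin.succ_ne_zero]
      ring
    rw [hd]
    intro h
    have he : sumSq (Fin.tail z) = z 0 ^ 2 := by linarith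
    have ht : Fin.tail z ≠ 0 := fun ht => by
      refine hzne ?_
      have hm0 : z 0 = 0 := by
        rw [ht] at he; simpa [sumSq] using he.symm
      rw [← Fin.cons_self_tail z, hm0, ht]
      exact funext fun i => Fin.cases rfl (fun j => rfl) i
    refine hs _ ht ?_
    rw [pcub, he] at hz0
    rw [he, show tri M (Fin.tail z) = z 0 ^ 3 by linear_combination (1 / 2 : ℝ) * hz0]
    ring

/-- With a node the cone is a spectrahedron. -/
lemma nodal_shadow {M : Fin 4 → Fin 4 → Fin 4 → ℝ} (hM : Bounded3 M) {y₀ : Fin 4 → ℝ}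
    (hne : y₀ ≠ 0) (heq : tri M y₀ ^ 2 = sumSq y₀ ^ 3) :
    IsSpectrahedralShadow {x : Fin 5 → ℝ | InCone M (x 0) (Fin.tail x)} := by
  have hr : 0 < sumSq y₀ :=
    lt_of_le_of_ne (sumSq_nonneg _) fun h => hne (sumSq_eq_zero.1 h.symm)
  set ρ := Real.sqrt (sumSq y₀) with hρ
  have hρ2 : ρ ^ 2 = sumSq y₀ := Real.sq_sqrt hr.le
  have hρ0 : 0 < ρ := Real.sqrt_pos.2 hr
  obtain ⟨y₁, h1s, h1t⟩ : ∃ y₁ : Fin 4 → ℝ, sumSq y₁ = 1 ∧ tri M y₁ = 1 := by
    have hs : sumSq (ρ⁻¹ • y₀) = 1 := by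
      rw [sumSq_smul, ← hρ2]; field_simp
    have ht : tri M (ρ⁻¹ • y₀) ^ 2 = 1 := by
      rw [tri_smul, mul_pow, heq, ← hρ2]; field_simp
    rcases sq_eq_one_iff.1 ht with h | h
    · exact ⟨_, hs, h⟩
    · exact ⟨-(ρ⁻¹ • y₀), by rw [sumSq_neg, hs], by rw [tri_neg, h, neg_neg]⟩
  obtain ⟨R, hRn, hRR, hR⟩ := exists_swap (Fin.cons 1 0) y₁ (by
    rw [h1s]; simp [sumSq, Fin.sum_univ_succ])
  set M' := triComp M (LinearMap.toMatrix' R) with hM'
  have htri : ∀ v, tri M' v = tri M (R v) := fun v => by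
    rw [hM', tri_triComp, LinearMap.toMatrix'_mulVec]
  obtain ⟨A, hA, hiff⟩ := node_pencil_closed M'
    (fun v => by rw [htri, ← hRn v]; exact hM _)
    (by rw [← tri_axis M', htri, hR, h1t])
  have hcone : ∀ m y, InCone M m y ↔ InCone M' m (R y) := fun m y => by
    simp [InCone, pcub, htri, hRn, hRR]
  let Φ : ((Fin 5 → ℝ) × (Empty → ℝ)) →ₗ[ℝ] Matrix Ix Ix ℝ :=
    { toFun := fun q => q.1 0 • (1 : Matrix Ix Ix ℝ) + A (R (Fin.tail q.1))
      map_add' := fun p q => by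
        rw [show Fin.tail (p + q).1 = Fin.tail p.1 + Fin.tail q.1 from rfl, map_add, map_add,
          Prod.fst_add, Pi.add_apply, add_smul]
        abel
      map_smul' := fun c q => by
        rw [show Fin.tail (c • q).1 = c • Fin.tail q.1 from rfl, map_smul, map_smul,
          Prod.smul_fst, Pi.smul_apply, smul_assoc, RingHom.id_apply, smul_add] }
  refine shadow_of_linearMap Φ (fun q => (Matrix.isSymm_one.smul _).add (hA _)) fun x => ?_
  simp only [Set.mem_ofPred_eq, Φ, LinearMap.coe_mk, AddHom.coe_mk]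
  rw [hcone, hiff]
  exact ⟨fun h => ⟨fun i => i.elim, h⟩, fun ⟨_, h⟩ => h⟩

/-- Every depressed cubic cone over four variables is a spectrahedral shadow. -/
theorem depressed_shadow {M : Fin 4 → Fin 4 → Fin 4 → ℝ} (hM : Bounded3 M) :
    IsSpectrahedralShadow {x : Fin 5 → ℝ | InCone M (x 0) (Fin.tail x)} := by
  by_cases h : ∃ y, y ≠ 0 ∧ tri M y ^ 2 = sumSq y ^ 3
  · obtain ⟨y, hy, he⟩ := h
    exact nodal_shadow hM hy he
  · push Not at h
    exact strict_shadow hM h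

end Vale.Agent.P256.Cubic
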