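import Mathlib
import Vale.Agent.P256.Cubic.Cone

/-!
Factoring a positive semidefinite quadratic form through a space of the dimension of its rank, and
reflections.
-/

namespace Vale.Agent.P256.Cubic

open Matrix Module

/-- The quadratic form of a matrix. -/
def qf {ι : Type*} [Fintype ι] (M : Matrix ι ι ℝ) (x : ι → ℝ) : ℝ := x ⬝ᵥ M *ᵥ x

lemma sumSq_eq_dot {n : ℕ} (v : Fin n → ℝ) : sumSq v = v ⬝ᵥ v := by
  simp [sumSq, dotProduct, sq]

lemma sumSq_nonneg {n : ℕ} (v : Fin n → ℝ) : 0 ≤ sumSq v :=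
  Finset.sum_nonneg fun i _ => sq_nonneg (v i)

lemma sumSq_eq_zero {n : ℕ} {v : Fin n → ℝ} : sumSq v = 0 ↔ v = 0 := by
  rw [sumSq_eq_dot, dotProduct_self_eq_zero]

lemma sumSq_smul {n : ℕ} (t : ℝ) (v : Fin n → ℝ) : sumSq (t • v) = t ^ 2 * sumSq v := by
  simp [sumSq, mul_pow, Finset.mul_sum]

lemma posSemidef_iff_qf {ι : Type*} [Fintype ι] {M : Matrix ι ι ℝ} (hM : M.IsSymm) :
    M.PosSemidef ↔ ∀ x, 0 ≤ qf M x := by
  simp [posSemidef_iff_dotProduct_mulVec, qf, IsHermitian, conjTranspose_eq_transpose_of_trivial,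
    hM.eq]

/-- A positive semidefinite form is the pullback of the squared length. -/
lemma exists_sqrt_map {n : ℕ} {S : Matrix (Fin n) (Fin n) ℝ} (hS : S.PosSemidef) :
    ∃ (m : ℕ) (T : (Fin n → ℝ) →ₗ[ℝ] (Fin m → ℝ)), ∀ x, sumSq (T x) = qf S x := by
  obtain ⟨m, w, rfl⟩ := posSemidef_iff_eq_sum_vecMulVec.mp hS
  refine ⟨m, LinearMap.pi fun i =>
    { toFun := fun x => w i ⬝ᵥ x, map_add' := dotProduct_add (w i),
      map_smul' := fun c x => by simp }, fun x => ?_⟩
  simp only [qf, sum_mulVec, vecMulVec_mulVec, star_trivial, dotProduct_sum, sumSq]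
  refine Finset.sum_congr rfl fun i _ => ?_
  simp [dotProduct_comm x (w i), sq]

/-- A linear map of rank at most `d` has the same length function as a map into `d` variables,
with a partial inverse that does not increase length. -/
lemma exists_compress {n m d : ℕ} (T : (Fin n → ℝ) →ₗ[ℝ] (Fin m → ℝ))
    (hd : finrank ℝ (LinearMap.range T) ≤ d) :
    ∃ (Y : (Fin n → ℝ) →ₗ[ℝ] (Fin d → ℝ)) (g : (Fin d → ℝ) →ₗ[ℝ] (Fin n → ℝ)),
      (∀ x, sumSq (Y x) = sumSq (T x)) ∧ (∀ x, T (g (Y x) - x) = 0) ∧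
        ∀ y, sumSq (T (g y)) ≤ sumSq y := by
  let eE : EuclideanSpace ℝ (Fin m) ≃ₗ[ℝ] (Fin m → ℝ) := WithLp.linearEquiv 2 ℝ (Fin m → ℝ)
  let T' : (Fin n → ℝ) →ₗ[ℝ] EuclideanSpace ℝ (Fin m) := eE.symm.toLinearMap.comp T
  set W := LinearMap.range T' with hW
  have hr : finrank ℝ W ≤ d := by
    refine le_trans (le_of_eq ?_) hd
    rw [hW, LinearMap.range_comp]
    exact LinearEquiv.finrank_map_eq eE.symm _
  set b := stdOrthonormalBasis ℝ W with hb
  obtain ⟨k, hk⟩ := Nat.exists_eq_add_of_le hr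
  subst hk
  obtain ⟨f, hf⟩ := T'.rangeRestrict.exists_rightInverse_of_surjective T'.range_rangeRestrict
  let π : W →ₗ[ℝ] (Fin (finrank ℝ W + k) → ℝ) :=
    { toFun := fun w => Fin.append (b.repr w) 0
      map_add' := fun u v => funext fun i => by refine Fin.addCases ?_ ?_ i <;> simp
      map_smul' := fun c v => funext fun i => by refine Fin.addCases ?_ ?_ i <;> simp }
  let σ : (Fin (finrank ℝ W + k) → ℝ) →ₗ[ℝ] W :=
    { toFun := fun y => ∑ i, y (Fin.castAdd k i) • b i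
      map_add' := fun u v => by simp [add_smul, Finset.sum_add_distrib]
      map_smul' := fun c v => by simp [Finset.smul_sum, smul_smul] }
  have hσπ : ∀ w : W, σ (π w) = w := fun w => by
    simp only [σ, π, LinearMap.coe_mk, AddHom.coe_mk, Fin.append_left]
    exact b.sum_repr w
  have hn : ∀ v : Fin n → ℝ, sumSq (T v) = ‖T'.rangeRestrict v‖ ^ 2 := fun v => by
    rw [Submodule.coe_norm, LinearMap.codRestrict_apply, EuclideanSpace.norm_sq_eq]
    simp [sumSq, T', eE]
  have hπn : ∀ w : W, sumSq (π w) = ‖w‖ ^ 2 := fun w => by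
    rw [← b.repr.norm_map, EuclideanSpace.norm_sq_eq]
    simp [sumSq, π, Fin.sum_univ_add]
  refine ⟨π.comp T'.rangeRestrict, f.comp σ, fun x => ?_, fun x => ?_, fun y => ?_⟩
  · rw [LinearMap.comp_apply, hπn, hn]
  · have h := LinearMap.congr_fun hf (T'.rangeRestrict x)
    simp only [LinearMap.comp_apply, LinearMap.id_coe, id] at h
    have h2 : T' (f (T'.rangeRestrict x)) = T' x := congrArg Subtype.val h
    simp only [LinearMap.comp_apply, hσπ, map_sub, sub_eq_zero]
    exact eE.symm.injective h2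
  · have h := LinearMap.congr_fun hf (σ y)
    simp only [LinearMap.comp_apply, LinearMap.id_coe, id] at h
    rw [LinearMap.comp_apply, hn, h, ← b.repr.norm_map, EuclideanSpace.norm_sq_eq]
    have : ∀ i, b.repr (σ y) i = y (Fin.castAdd k i) := fun i => by
      simp [σ, Pi.single_apply]
    simp only [Real.norm_eq_abs, sq_abs, this, sumSq, Fin.sum_univ_add]
    exact le_add_of_nonneg_right (Finset.sum_nonneg fun i _ => sq_nonneg _)

/-- An orthogonal involution exchanging two given vectors of equal length. -/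
lemma exists_swap {n : ℕ} (a b : Fin n → ℝ) (hab : sumSq a = sumSq b) :
    ∃ R : (Fin n → ℝ) →ₗ[ℝ] (Fin n → ℝ),
      (∀ v, sumSq (R v) = sumSq v) ∧ (∀ v, R (R v) = v) ∧ R a = b := by
  set w := a - b with hw
  let R : (Fin n → ℝ) →ₗ[ℝ] (Fin n → ℝ) :=
    { toFun := fun v => v - (2 * (w ⬝ᵥ v) / (w ⬝ᵥ w)) • w
      map_add' := fun u v => by
        simp [dotProduct_add, mul_add, add_div, add_smul]; abel
      map_smul' := fun c v => by
        simp [dotProduct_smul, smul_sub, smul_smul]; ring_nf }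
  have hR : ∀ v, R v = v - (2 * (w ⬝ᵥ v) / (w ⬝ᵥ w)) • w := fun v => rfl
  by_cases h0 : w ⬝ᵥ w = 0
  · have hid : ∀ v, R v = v := fun v => by simp [hR, h0]
    exact ⟨R, fun v => by rw [hid], fun v => by rw [hid, hid],
      by rw [hid]; exact sub_eq_zero.1 (dotProduct_self_eq_zero.1 h0)⟩
  refine ⟨R, fun v => ?_, fun v => ?_, ?_⟩
  · rw [sumSq_eq_dot, sumSq_eq_dot, hR]
    simp only [sub_dotProduct, dotProduct_sub, smul_dotProduct, dotProduct_smul, smul_eq_mul,
      dotProduct_comm v w]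
    field_simp
    ring
  · rw [hR, hR]
    simp only [dotProduct_sub, dotProduct_smul, smul_eq_mul]
    rw [show 2 * (w ⬝ᵥ v - 2 * (w ⬝ᵥ v) / (w ⬝ᵥ w) * (w ⬝ᵥ w)) / (w ⬝ᵥ w) =
      -(2 * (w ⬝ᵥ v) / (w ⬝ᵥ w)) by field_simp; ring]
    simp
  · have hww : w ⬝ᵥ w = 2 * (w ⬝ᵥ a) := by
      rw [sumSq_eq_dot, sumSq_eq_dot] at hab
      simp only [hw, sub_dotProduct, dotProduct_sub, dotProduct_comm b a]
      linear_combination -hab
    rw [hR, ← hww, div_self h0, one_smul, hw, sub_sub_cancel]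

end Vale.Agent.P256.Cubic
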