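import Vale.Agent.P256.Cubic.Node

/-!
Degenerate nodes: the pencils of bounded size converge.
-/

namespace Vale.Agent.P256.Cubic

open Matrix Filter Topology

/-- The trilinear form mixed with the cube of the first coordinate. -/
def mix (ε : ℝ) (M : Fin 4 → Fin 4 → Fin 4 → ℝ) : Fin 4 → Fin 4 → Fin 4 → ℝ :=
  fun i j l => (1 - ε) * M i j l + if i = 0 ∧ j = 0 ∧ l = 0 then ε else 0

lemma tri_mix (ε : ℝ) (M : Fin 4 → Fin 4 → Fin 4 → ℝ) (y : Fin 4 → ℝ) :
    tri (mix ε M) y = (1 - ε) * tri M y + ε * y 0 ^ 3 := by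
  simp only [tri, mix, add_mul, Finset.sum_add_distrib, Finset.mul_sum, mul_assoc, ite_mul,
    zero_mul]
  congr 1
  simp [Fin.sum_univ_four, pow_three, mul_assoc]

lemma bounded_mix {ε : ℝ} {M : Fin 4 → Fin 4 → Fin 4 → ℝ} (hM : Bounded3 M) (h0 : 0 ≤ ε)
    (h1 : ε ≤ 1) : Bounded3 (mix ε M) := fun y => by
  have hy : (y 0 ^ 3) ^ 2 ≤ sumSq y ^ 3 := by
    rw [show (y 0 ^ 3) ^ 2 = (y 0 ^ 2) ^ 3 by ring]
    exact pow_le_pow_left₀ (sq_nonneg _)
      (Finset.single_le_sum (fun i _ => sq_nonneg (y i)) (Finset.mem_univ 0)) 3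
  rw [tri_mix]
  nlinarith [hM y, mul_nonneg (mul_nonneg h0 (sub_nonneg.2 h1))
    (sq_nonneg (tri M y - y 0 ^ 3)), mul_le_mul_of_nonneg_left hy h0,
    mul_le_mul_of_nonneg_left (hM y) (sub_nonneg.2 h1)]

lemma quad3_mix (ε : ℝ) (M : Fin 4 → Fin 4 → Fin 4 → ℝ) (w : Fin 3 → ℝ) :
    qf (quad3 (mix ε M)) w = (1 - ε) * qf (quad3 M) w := by
  simp [qf, quad3, mix, dotProduct, mulVec, Fin.sum_univ_three, Fin.succ_ne_zero]
  ring

lemma qf_single {ι : Type*} [Fintype ι] [DecidableEq ι] (M : Matrix ι ι ℝ) (a b : ι) (t : ℝ) :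
    qf M (Pi.single a 1 + t • Pi.single b 1) = M a a + t * (M a b + M b a) + t ^ 2 * M b b := by
  simp [qf, mulVec_add, mulVec_smul, add_dotProduct, dotProduct_add, smul_dotProduct]
  ring

lemma qf_shift {ι : Type*} [Fintype ι] [DecidableEq ι] (m : ℝ) (M : Matrix ι ι ℝ) (x : ι → ℝ) :
    qf (m • (1 : Matrix ι ι ℝ) + M) x = m * (x ⬝ᵥ x) + qf M x := by
  simp [qf, add_mulVec, smul_mulVec]

lemma qf_le {ι : Type*} [Fintype ι] (M : Matrix ι ι ℝ) (x : ι → ℝ) :
    |qf M x| ≤ (∑ a, ∑ b, |M a b|) * (x ⬝ᵥ x) := by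
  simp only [qf, dotProduct, mulVec]
  rw [Finset.sum_mul]
  refine (Finset.abs_sum_le_sum_abs _ _).trans (Finset.sum_le_sum fun a _ => ?_)
  rw [Finset.mul_sum, Finset.sum_mul]
  refine (Finset.abs_sum_le_sum_abs _ _).trans (Finset.sum_le_sum fun b _ => ?_)
  rw [abs_mul, abs_mul, mul_left_comm]
  refine mul_le_mul_of_nonneg_left ?_ (abs_nonneg _)
  have ha := Finset.single_le_sum (fun c _ => mul_self_nonneg (x c)) (Finset.mem_univ a)
  have hb := Finset.single_le_sum (fun c _ => mul_self_nonneg (x c)) (Finset.mem_univ b)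
  nlinarith [sq_nonneg (|x a| - |x b|), abs_mul_abs_self (x a), abs_mul_abs_self (x b)]

/-- A symmetric pencil that is nonnegative on both sides of a direction has bounded entries. -/
lemma entry_bound {M : Matrix Ix Ix ℝ} (hM : M.IsSymm)
    (hp : ∀ x, 0 ≤ 2 * (x ⬝ᵥ x) + qf M x) (hn : ∀ x, 0 ≤ 2 * (x ⬝ᵥ x) - qf M x) (a b : Ix) :
    |M a b| ≤ 4 := by
  have hpos := fun t : ℝ => hp (Pi.single a (1 : ℝ) + t • Pi.single b (1 : ℝ))
  have hneg := fun t : ℝ => hn (Pi.single a (1 : ℝ) + t • Pi.single b (1 : ℝ))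
  simp only [qf_single, hM.apply a b] at hpos hneg
  by_cases hab : a = b
  · subst hab
    have h1 := hpos 0
    have h2 := hneg 0
    simp at h1 h2
    exact abs_le.2 ⟨by linarith, by linarith⟩
  have hd : ∀ t : ℝ, (Pi.single a 1 + t • Pi.single b 1 : Ix → ℝ) ⬝ᵥ
      (Pi.single a 1 + t • Pi.single b 1) = 1 + t ^ 2 := fun t => by
    simp [add_dotProduct, dotProduct_add, smul_dotProduct, Pi.single_apply, hab, Ne.symm hab]
    ring
  simp only [hd] at hpos hneg
  exact abs_le.2 ⟨by linarith [hpos 1, hneg (-1)], by linarith [hpos (-1), hneg 1]⟩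

lemma continuous_pcub {n : ℕ} (M : Fin n → Fin n → Fin n → ℝ) (y : Fin n → ℝ) :
    Continuous fun m => pcub M m y := by
  unfold pcub; fun_prop

lemma inCone_of_shift {n : ℕ} {M : Fin n → Fin n → Fin n → ℝ} {m : ℝ} {y : Fin n → ℝ}
    (h : ∀ δ : ℝ, 0 < δ → InCone M (m + δ) y) : InCone M m y := by
  have hev : ∀ f : ℝ → ℝ, Continuous f → (∀ δ, 0 < δ → 0 ≤ f δ) → 0 ≤ f 0 := fun f hf hp' =>
    ge_of_tendsto ((hf.tendsto 0).mono_left (nhdsWithin_le_nhds (s := Set.Ioi 0)))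
      (eventually_nhdsWithin_of_forall hp')
  refine ⟨?_, ?_, ?_⟩
  · simpa using hev (fun δ => m + δ) (by fun_prop) fun δ hδ => (h δ hδ).1
  · simpa using hev (fun δ => (m + δ) ^ 2 - sumSq y) (by fun_prop) fun δ hδ =>
      sub_nonneg.2 (h δ hδ).2.1
  · simpa using hev (fun δ => pcub M (m + δ) y)
      ((continuous_pcub M y).comp (by fun_prop)) fun δ hδ => (h δ hδ).2.2

/-- A cubic cone with a node at the first axis is a spectrahedron. -/
theorem node_pencil_closed (M : Fin 4 → Fin 4 → Fin 4 → ℝ) (hM : Bounded3 M) (h1 : M 0 0 0 = 1) :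
    ∃ A : (Fin 4 → ℝ) →ₗ[ℝ] Matrix Ix Ix ℝ, (∀ y, (A y).IsSymm) ∧
      ∀ m y, InCone M m y ↔ (m • (1 : Matrix Ix Ix ℝ) + A y).PosSemidef := by
  set ε : ℕ → ℝ := fun k => 1 / ((k : ℝ) + 2) with hε
  have hε0 : ∀ k, 0 < ε k := fun k => by positivity
  have hε1 : ∀ k, ε k < 1 := fun k => by
    rw [hε, div_lt_one (by positivity)]
    linarith [(Nat.cast_nonneg k : (0 : ℝ) ≤ k)]
  have hεlim : Tendsto ε atTop (𝓝 0) := by
    have := (tendsto_add_atTop_iff_nat 1).2 (tendsto_one_div_add_atTop_nhds_zero_nat (𝕜 := ℝ))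
    simpa [hε, add_assoc, one_add_one_eq_two] using this
  have hMk : ∀ k, Bounded3 (mix (ε k) M) := fun k => bounded_mix hM (hε0 k).le (hε1 k).le
  have hex := fun k => node_pencil (mix (ε k) M) (hMk k) (by simp [mix, h1]) (fun w hw => by
    rw [quad3_mix]
    have h2 := (max_facts hM h1 w).2
    have hr : 0 < sumSq w := lt_of_le_of_ne (sumSq_nonneg w) fun h => hw (sumSq_eq_zero.1 h.symm)
    nlinarith [mul_pos (hε0 k) hr, mul_le_mul_of_nonneg_left h2 (sub_nonneg.2 (hε1 k).le)])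
  choose A hAs hA using hex
  have hq : ∀ k m y, InCone (mix (ε k) M) m y ↔ ∀ x, 0 ≤ m * (x ⬝ᵥ x) + qf (A k y) x :=
    fun k m y => by
      rw [hA, posSemidef_iff_qf ((Matrix.isSymm_one.smul m).add (hAs k y))]
      simp only [qf_shift]
  -- the entries stay bounded
  set F : ℕ → Fin 4 → Ix → Ix → ℝ := fun k i a b => A k (Pi.single i 1) a b with hF
  have hFb : ∀ k, F k ∈ Set.Icc (fun _ _ _ => (-4 : ℝ)) (fun _ _ _ => 4) := fun k => by
    suffices h : ∀ i a b, |F k i a b| ≤ 4 from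
      ⟨fun i a b => (abs_le.1 (h i a b)).1, fun i a b => (abs_le.1 (h i a b)).2⟩
    intro i a b
    have hin : ∀ t : ℝ, t ^ 2 = 1 → InCone (mix (ε k) M) 2 (t • Pi.single i 1) := fun t ht => by
      have hs : sumSq (t • Pi.single i 1 : Fin 4 → ℝ) = 1 := by
        rw [sumSq_smul, ht]; simp [sumSq_eq_dot]
      have hc := hMk k (t • Pi.single i 1)
      rw [hs] at hc
      refine ⟨by norm_num, by rw [hs]; norm_num, ?_⟩
      rw [pcub, hs]
      nlinarith
    refine entry_bound (hAs k _) (fun x => ?_) (fun x => ?_) a b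
    · have := (hq k _ _).1 (hin 1 (by norm_num)) x
      simpa using this
    · have := (hq k _ _).1 (hin (-1) (by norm_num)) x
      simp [qf, neg_mulVec] at this
      simp [qf]
      linarith
  obtain ⟨G, -, φ, hφ, hG⟩ := isCompact_Icc.tendsto_subseq hFb
  set Gm : Fin 4 → Matrix Ix Ix ℝ := fun i => Matrix.of (G i) with hGm
  let A₀ : (Fin 4 → ℝ) →ₗ[ℝ] Matrix Ix Ix ℝ :=
    ∑ i, (LinearMap.proj i).smulRight (Gm i)
  have hent : ∀ k y a b, A k y a b = ∑ i, y i * F k i a b := fun k y a b => by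
    conv_lhs => rw [pi_eq_sum_univ' y, map_sum]
    simp [Matrix.sum_apply, hF]
  have hlimA : ∀ y a b, Tendsto (fun k => A (φ k) y a b) atTop (𝓝 (A₀ y a b)) := fun y a b => by
    simp only [hent]
    have : A₀ y a b = ∑ i, y i * G i a b := by simp [A₀, Gm, Matrix.sum_apply]
    rw [this]
    refine tendsto_finsetSum _ fun i _ => Tendsto.const_mul _ ?_
    exact tendsto_pi_nhds.1 (tendsto_pi_nhds.1 (tendsto_pi_nhds.1 hG i) a) b
  have hsymm : ∀ y, (A₀ y).IsSymm := fun y => by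
    ext a b
    refine tendsto_nhds_unique (hlimA y b a) ?_
    simpa only [(hAs _ y).apply a b] using hlimA y a b
  have hεφ : Tendsto (fun k => ε (φ k)) atTop (𝓝 0) := hεlim.comp hφ.tendsto_atTop
  have hpc : ∀ m y, Tendsto (fun k => pcub (mix (ε (φ k)) M) m y) atTop (𝓝 (pcub M m y)) := by
    intro m y
    simp only [pcub, tri_mix]
    refine ((show Continuous fun e : ℝ =>
      m ^ 3 - 3 * m * sumSq y + 2 * ((1 - e) * tri M y + e * y 0 ^ 3) by fun_prop).tendsto' 0 _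
      (by simp)).comp hεφ
  refine ⟨A₀, hsymm, fun m y => ?_⟩
  rw [posSemidef_iff_qf ((Matrix.isSymm_one.smul m).add (hsymm y))]
  simp only [qf_shift]
  constructor
  · rintro ⟨hm, hmy, hp0⟩ x
    have hδ : ∀ δ : ℝ, 0 < δ → 0 ≤ (m + δ) * (x ⬝ᵥ x) + qf (A₀ y) x := fun δ hδ => by
      have hev := (hpc (m + δ) y).eventually_const_lt
        (hp0.trans_lt (pcub_lt M hm hmy (by linarith : m < m + δ)))
      have hlim : Tendsto (fun k => (m + δ) * (x ⬝ᵥ x) + qf (A (φ k) y) x) atTop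
          (𝓝 ((m + δ) * (x ⬝ᵥ x) + qf (A₀ y) x)) := by
        simp only [qf, dotProduct, mulVec]
        exact tendsto_const_nhds.add (tendsto_finsetSum _ fun a _ => Tendsto.const_mul _
          (tendsto_finsetSum _ fun b _ => (hlimA y a b).mul_const _))
      refine ge_of_tendsto hlim (hev.mono fun k hk => ?_)
      exact (hq _ _ _).1 ⟨by linarith, by nlinarith, hk.le⟩ x
    have hc : Continuous fun δ : ℝ => (m + δ) * (x ⬝ᵥ x) + qf (A₀ y) x := by fun_prop
    simpa using ge_of_tendsto ((hc.tendsto 0).mono_left (nhdsWithin_le_nhds (s := Set.Ioi 0)))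
      (eventually_nhdsWithin_of_forall hδ)
  · intro hpsd
    refine inCone_of_shift fun δ hδ => ?_
    set η : ℕ → ℝ := fun k => ∑ a, ∑ b, |(A (φ k) y - A₀ y) a b| with hη
    have hη0 : Tendsto η atTop (𝓝 0) := by
      have h : ∀ a b, Tendsto (fun k => |(A (φ k) y - A₀ y) a b|) atTop (𝓝 0) := fun a b => by
        simpa using ((hlimA y a b).sub_const (A₀ y a b)).abs
      have h2 := tendsto_finsetSum (Finset.univ : Finset Ix) fun a _ =>
        tendsto_finsetSum (Finset.univ : Finset Ix) fun b _ => h a b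
      simp only [Finset.sum_const_zero] at h2
      exact h2
    have hev : ∀ᶠ k in atTop, InCone (mix (ε (φ k)) M) (m + δ) y :=
      (hη0.eventually_lt_const hδ).mono fun k hk => (hq _ _ _).2 fun x => by
        have h := qf_le (A (φ k) y - A₀ y) x
        have e : qf (A (φ k) y - A₀ y) x = qf (A (φ k) y) x - qf (A₀ y) x := by
          simp [qf, sub_mulVec]
        have hxx : 0 ≤ x ⬝ᵥ x := Finset.sum_nonneg fun a _ => mul_self_nonneg (x a)
        rw [e] at h
        nlinarith [hpsd x, (abs_le.1 h).1, mul_le_mul_of_nonneg_right hk.le hxx]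
    obtain ⟨k, hk⟩ := hev.exists
    exact ⟨hk.1, hk.2.1, ge_of_tendsto (hpc _ y) (hev.mono fun k hk => hk.2.2)⟩

end Vale.Agent.P256.Cubic
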