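import Vale.Agent.P256.Cubic.Factor

/-!
The cubic cone with a nondegenerate node is a spectrahedron of bounded size.
-/

namespace Vale.Agent.P256.Cubic

open Matrix

/-- The depressed cubic `m ^ 3 - 3 m |y| ^ 2 + 2 c y`. -/
def pcub {n : ℕ} (M : Fin n → Fin n → Fin n → ℝ) (m : ℝ) (y : Fin n → ℝ) : ℝ :=
  m ^ 3 - 3 * m * sumSq y + 2 * tri M y

/-- The cone of the depressed cubic. -/
def InCone {n : ℕ} (M : Fin n → Fin n → Fin n → ℝ) (m : ℝ) (y : Fin n → ℝ) : Prop :=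
  0 ≤ m ∧ sumSq y ≤ m ^ 2 ∧ 0 ≤ pcub M m y

/-- The trilinear form is bounded by the cube of the length. -/
def Bounded3 {n : ℕ} (M : Fin n → Fin n → Fin n → ℝ) : Prop :=
  ∀ y, tri M y ^ 2 ≤ sumSq y ^ 3

lemma pcub_sphere {n : ℕ} {M : Fin n → Fin n → Fin n → ℝ} (hM : Bounded3 M) {m : ℝ}
    {y : Fin n → ℝ} (hm : 0 ≤ m) (h : sumSq y = m ^ 2) : pcub M m y ≤ 0 := by
  have h1 : tri M y ^ 2 ≤ (m ^ 3) ^ 2 := by
    have := hM y
    rw [h] at this
    linarith [show (m ^ 2) ^ 3 = (m ^ 3) ^ 2 by ring]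
  have h2 := (abs_le_of_sq_le_sq' h1 (by positivity)).2
  rw [pcub, h]
  linarith [show 3 * m * m ^ 2 = 3 * m ^ 3 by ring]

lemma pcub_lt {n : ℕ} (M : Fin n → Fin n → Fin n → ℝ) {m₁ m₂ : ℝ} {y : Fin n → ℝ} (h0 : 0 ≤ m₁)
    (h : sumSq y ≤ m₁ ^ 2) (h12 : m₁ < m₂) : pcub M m₁ y < pcub M m₂ y := by
  have e : pcub M m₂ y - pcub M m₁ y =
      (m₂ - m₁) * (m₂ ^ 2 + m₂ * m₁ + m₁ ^ 2 - 3 * sumSq y) := by
    simp only [pcub]; ring
  have : 0 < m₂ ^ 2 + m₂ * m₁ + m₁ ^ 2 - 3 * sumSq y := by nlinarith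
  nlinarith [mul_pos (sub_pos.2 h12) this]

/-- The restriction to the last three variables. -/
def sub3 (M : Fin 4 → Fin 4 → Fin 4 → ℝ) : Fin 3 → Fin 3 → Fin 3 → ℝ :=
  fun i j l => M i.succ j.succ l.succ

/-- The part of degree two in the first variable. -/
def lin3 (M : Fin 4 → Fin 4 → Fin 4 → ℝ) : Fin 3 → ℝ :=
  fun j => M 0 0 j.succ + M 0 j.succ 0 + M j.succ 0 0

/-- The part of degree one in the first variable. -/
noncomputable def quad3 (M : Fin 4 → Fin 4 → Fin 4 → ℝ) : Matrix (Fin 3) (Fin 3) ℝ :=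
  Matrix.of fun j l => (M 0 j.succ l.succ + M j.succ 0 l.succ + M j.succ l.succ 0 +
    (M 0 l.succ j.succ + M l.succ 0 j.succ + M l.succ j.succ 0)) / 2

lemma tri_cons (M : Fin 4 → Fin 4 → Fin 4 → ℝ) (a : ℝ) (w : Fin 3 → ℝ) :
    tri M (Fin.cons a w) = M 0 0 0 * a ^ 3 + a ^ 2 * (lin3 M ⬝ᵥ w) + a * qf (quad3 M) w +
      tri (sub3 M) w := by
  simp [tri, Fin.sum_univ_succ, lin3, quad3, sub3, qf, dotProduct, mulVec]
  ring

lemma tri_axis (M : Fin 4 → Fin 4 → Fin 4 → ℝ) :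
    tri M (Fin.cons 1 0) = M 0 0 0 := by
  rw [tri_cons]; simp [qf, tri]

/-- At a maximal direction the linear term vanishes and the quadratic one is bounded. -/
lemma max_facts {M : Fin 4 → Fin 4 → Fin 4 → ℝ} (hM : Bounded3 M) (h1 : M 0 0 0 = 1)
    (w : Fin 3 → ℝ) : lin3 M ⬝ᵥ w = 0 ∧ 2 * qf (quad3 M) w ≤ 3 * sumSq w := by
  set L := lin3 M ⬝ᵥ w
  set B := qf (quad3 M) w
  set C := tri (sub3 M) w
  set r := sumSq w with hr
  have hr0 : 0 ≤ r := sumSq_nonneg w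
  have key : ∀ t : ℝ, t * (L + t * (B - 3 / 2 * r + t * C - 3 / 8 * t ^ 2 * r ^ 2)) ≤ 0 := by
    intro t
    have h := hM (Fin.cons 1 (t • w))
    have e1 : sumSq (Fin.cons 1 (t • w) : Fin 4 → ℝ) = 1 + t ^ 2 * r := by
      rw [hr, ← sumSq_smul]; simp [sumSq, Fin.sum_univ_succ]
    have e2 : tri M (Fin.cons 1 (t • w)) = 1 + t * L + t ^ 2 * B + t ^ 3 * C := by
      rw [tri_cons, h1, tri_smul]
      simp [qf, mulVec_smul, L, B, C]; ring
    rw [e1, e2] at h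
    set x := t ^ 2 * r with hx
    have hx0 : 0 ≤ x := by positivity
    have h' : (1 + x) ^ 3 ≤ (1 + 3 / 2 * x + 3 / 8 * x ^ 2) ^ 2 := by
      nlinarith [pow_nonneg hx0 3, pow_nonneg hx0 4, sq_nonneg x]
    have := (abs_le_of_sq_le_sq' (h.trans h') (by positivity)).2
    rw [hx] at this
    nlinarith
  have hL : L = 0 := by
    have hc : Continuous fun t : ℝ =>
        L + t * (B - 3 / 2 * r + t * C - 3 / 8 * t ^ 2 * r ^ 2) := by fun_prop
    have hl := hc.tendsto' 0 L (by simp)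
    refine le_antisymm ?_ ?_
    · exact le_of_tendsto (hl.mono_left (nhdsWithin_le_nhds (s := Set.Ioi 0)))
        (eventually_nhdsWithin_of_forall fun t (ht : 0 < t) => by
          have := key t; nlinarith)
    · exact ge_of_tendsto (hl.mono_left (nhdsWithin_le_nhds (s := Set.Iio 0)))
        (eventually_nhdsWithin_of_forall fun t (ht : t < 0) => by
          have := key t; nlinarith)
  refine ⟨hL, ?_⟩
  have hc : Continuous fun t : ℝ => B - 3 / 2 * r + t * C - 3 / 8 * t ^ 2 * r ^ 2 := by fun_prop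
  have := le_of_tendsto ((hc.tendsto' 0 (B - 3 / 2 * r) (by simp)).mono_left
      (nhdsWithin_le_nhds (s := Set.Ioi 0))) (b := 0)
    (eventually_nhdsWithin_of_forall fun t (ht : 0 < t) => by
      have h := key t
      rw [hL, zero_add] at h
      have : 0 < t * t := mul_pos ht ht
      nlinarith)
  linarith

/-- The cubic `-(u ^ 3 - 3 u |w| ^ 2 + 2 C w)` as a trilinear form. -/
def negPcub (C : Fin 3 → Fin 3 → Fin 3 → ℝ) : Fin 4 → Fin 4 → Fin 4 → ℝ :=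
  fun i j l => Fin.cases (Fin.cases (Fin.cases (-1) (fun _ => 0) l)
      (fun j' => Fin.cases 0 (fun l' => if j' = l' then 3 else 0) l) j)
    (fun i' => Fin.cases 0 (fun j' => Fin.cases 0 (fun l' => -2 * C i' j' l') l) j) i

lemma tri_negPcub (C : Fin 3 → Fin 3 → Fin 3 → ℝ) (u : ℝ) (w : Fin 3 → ℝ) :
    tri (negPcub C) (Fin.cons u w) = -pcub C u w := by
  simp [tri, negPcub, pcub, sumSq, Fin.sum_univ_succ]
  ring

/-- The adjugate action on spinors. -/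
def adjS (u a b c : ℝ) (h : Fin 4 → ℝ) : Fin 4 → ℝ :=
  ![(u + c) * h 0 + a * h 2 + b * h 3, (u + c) * h 1 - b * h 2 + a * h 3,
    a * h 0 - b * h 1 + (u - c) * h 2, b * h 0 + a * h 1 + (u - c) * h 3]

lemma spin_adj (u a b c : ℝ) (h : Fin 4 → ℝ) :
    spin u (-a) (-b) (-c) (adjS u a b c h) =
      (u ^ 2 - (a ^ 2 + b ^ 2 + c ^ 2)) * spin u a b c h := by
  simp [spin, adjS]; ring

lemma dot_adj (u a b c : ℝ) (h : Fin 4 → ℝ) :
    ∑ i, h i * adjS u a b c h i = spin u a b c h := by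
  simp [spin, adjS, Fin.sum_univ_four]; ring

lemma spin_shift (u a b c t : ℝ) (h z : Fin 4 → ℝ) :
    spin u (-a) (-b) (-c) (z + t • adjS u a b c h) =
      spin u (-a) (-b) (-c) z + 2 * t * (u ^ 2 - (a ^ 2 + b ^ 2 + c ^ 2)) * ∑ i, h i * z i +
        t ^ 2 * (u ^ 2 - (a ^ 2 + b ^ 2 + c ^ 2)) * spin u a b c h := by
  simp [spin, adjS, Fin.sum_univ_four]; ring

lemma spin_pos {u a b c : ℝ} (hu : 0 < u) (hq : a ^ 2 + b ^ 2 + c ^ 2 < u ^ 2) {h : Fin 4 → ℝ}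
    (hh : h ≠ 0) : 0 < spin u a b c h := by
  have huc : 0 < u + c := by nlinarith [sq_nonneg a, sq_nonneg b]
  have e : (u + c) * spin u a b c h = ((u + c) * h 0 + a * h 2 + b * h 3) ^ 2 +
      ((u + c) * h 1 - b * h 2 + a * h 3) ^ 2 +
      (u ^ 2 - (a ^ 2 + b ^ 2 + c ^ 2)) * (h 2 ^ 2 + h 3 ^ 2) := by
    simp [spin]; ring
  by_contra hc
  push Not at hc
  have h23 : h 2 ^ 2 + h 3 ^ 2 = 0 := by
    nlinarith [sq_nonneg ((u + c) * h 0 + a * h 2 + b * h 3),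
      sq_nonneg ((u + c) * h 1 - b * h 2 + a * h 3), sq_nonneg (h 2), sq_nonneg (h 3)]
  have h2 : h 2 = 0 := by nlinarith
  have h3 : h 3 = 0 := by nlinarith
  simp only [h2, h3, mul_zero, add_zero, sub_zero, ne_eq, OfNat.ofNat_ne_zero, not_false_eq_true,
    zero_pow] at e
  have h0 : ((u + c) * h 0) ^ 2 = 0 := by
    nlinarith [sq_nonneg ((u + c) * h 0), sq_nonneg ((u + c) * h 1)]
  have h1 : ((u + c) * h 1) ^ 2 = 0 := by
    nlinarith [sq_nonneg ((u + c) * h 0), sq_nonneg ((u + c) * h 1)]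
  simp [huc.ne'] at h0 h1
  exact hh (funext fun i => by fin_cases i <;> simp [h0, h1, h2, h3])

/-- The index type of the pencil. -/
abbrev Ix := Option (Fin 15 × Fin 4)

/-- The matrix of the spinor form. -/
def smat (u a b c : ℝ) : Matrix (Fin 4) (Fin 4) ℝ :=
  !![u + c, 0, a, b; 0, u + c, -b, a; a, -b, u - c, 0; b, a, 0, u - c]

/-- The pencil: a corner, a border and fifteen spinor blocks. -/
def pen (H : Fin 15 → Fin 4 → Fin 4 → ℝ) :
    (ℝ × (Fin 4 → ℝ)) →ₗ[ℝ] Matrix Ix Ix ℝ where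
  toFun q := Matrix.of fun
    | none, none => q.1
    | none, some p => lin4 (H p.1) (q.2 0) (q.2 1) (q.2 2) (q.2 3) p.2
    | some p, none => lin4 (H p.1) (q.2 0) (q.2 1) (q.2 2) (q.2 3) p.2
    | some p, some p' =>
      if p.1 = p'.1 then smat (q.2 0) (-q.2 1) (-q.2 2) (-q.2 3) p.2 p'.2 else 0
  map_add' q q' := by
    ext (_ | ⟨j, i⟩) (_ | ⟨j', i'⟩)
    · simp
    · simp [lin4]; ring
    · simp [lin4]; ring
    · by_cases h : j = j' <;> fin_cases i <;> fin_cases i' <;> simp [smat, h] <;> ring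
  map_smul' t q := by
    ext (_ | ⟨j, i⟩) (_ | ⟨j', i'⟩)
    · simp
    · simp [lin4]; ring
    · simp [lin4]; ring
    · by_cases h : j = j' <;> fin_cases i <;> fin_cases i' <;> simp [smat, h] <;> ring

lemma pen_isSymm (H : Fin 15 → Fin 4 → Fin 4 → ℝ) (q : ℝ × (Fin 4 → ℝ)) :
    (pen H q).IsSymm := by
  ext (_ | ⟨j, i⟩) (_ | ⟨j', i'⟩)
  · rfl
  · rfl
  · rfl
  · by_cases h : j = j'
    · subst h; fin_cases i <;> fin_cases i' <;> simp [pen, smat]
    · simp [pen, h, Ne.symm h]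

lemma qf_pen (H : Fin 15 → Fin 4 → Fin 4 → ℝ) (q : ℝ × (Fin 4 → ℝ)) (x : Ix → ℝ) :
    qf (pen H q) x = q.1 * x none ^ 2 +
      2 * x none * ∑ j, ∑ i, lin4 (H j) (q.2 0) (q.2 1) (q.2 2) (q.2 3) i * x (some (j, i)) +
      ∑ j, spin (q.2 0) (-q.2 1) (-q.2 2) (-q.2 3) fun i => x (some (j, i)) := by
  simp only [qf, dotProduct, mulVec, Fintype.sum_option, Fintype.sum_prod_type, pen,
    LinearMap.coe_mk, AddHom.coe_mk, Matrix.of_apply, ite_mul, zero_mul]
  have e : ∀ j, ∑ i, x (some (j, i)) * ∑ i',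
      smat (q.2 0) (-q.2 1) (-q.2 2) (-q.2 3) i i' * x (some (j, i')) =
      spin (q.2 0) (-q.2 1) (-q.2 2) (-q.2 3) fun i => x (some (j, i)) := fun j => by
    simp [smat, spin, Fin.sum_univ_four]; ring
  rw [Fintype.sum_congr _ _ fun j => (e j).symm]
  simp only [mul_add, Finset.mul_sum, Finset.sum_add_distrib]
  have e2 : ∀ (j : Fin 15) (i : Fin 4), ∑ j' : Fin 15, ∑ i' : Fin 4, x (some (j, i)) *
      (if j = j' then smat (q.2 0) (-q.2 1) (-q.2 2) (-q.2 3) i i' * x (some (j', i')) else 0) =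
      ∑ i', x (some (j, i)) *
        (smat (q.2 0) (-q.2 1) (-q.2 2) (-q.2 3) i i' * x (some (j, i'))) := fun j i => by
    rw [Finset.sum_eq_single j (fun j' _ h => by simp [Ne.symm h]) (by simp)]
    simp
  simp only [e2]
  have e3 : ∀ (f : Fin 15 → Fin 4 → ℝ), ∑ j, ∑ i, x (some (j, i)) * (f j i * x none) =
      ∑ j, ∑ i, x none * (f j i * x (some (j, i))) := fun f => by
    refine Finset.sum_congr rfl fun j _ => Finset.sum_congr rfl fun i _ => by ring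
  rw [e3]
  simp only [mul_assoc, ← Finset.mul_sum]
  ring

lemma qf_congr {ι κ : Type*} [Fintype ι] [Fintype κ] (T : Matrix κ ι ℝ) (M : Matrix κ κ ℝ)
    (x : ι → ℝ) : qf (Tᵀ * M * T) x = qf M (T *ᵥ x) := by
  simp [qf, Matrix.mul_assoc, ← Matrix.mulVec_mulVec, Matrix.dotProduct_mulVec,
    Matrix.vecMul_transpose]

/-- The square root of the quadratic form at a nondegenerate node. -/
lemma node_sqrt (M : Fin 4 → Fin 4 → Fin 4 → ℝ) (hM : Bounded3 M) (h1 : M 0 0 0 = 1)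
    (hB : ∀ w : Fin 3 → ℝ, w ≠ 0 → 2 * qf (quad3 M) w < 3 * sumSq w) :
    ∃ Λ : (Fin 3 → ℝ) ≃ₗ[ℝ] (Fin 3 → ℝ),
      ∀ w, sumSq (Λ w) = 3 * sumSq w - 2 * qf (quad3 M) w := by
  -- the square root of the quadratic form at the node
  set S : Matrix (Fin 3) (Fin 3) ℝ := (3 : ℝ) • 1 - (2 : ℝ) • quad3 M with hS
  have hSq : ∀ w, qf S w = 3 * sumSq w - 2 * qf (quad3 M) w := fun w => by
    simp [hS, qf, sub_mulVec, smul_mulVec, sumSq_eq_dot]
  have hSsymm : S.IsSymm := by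
    ext i j
    rcases eq_or_ne i j with rfl | h
    · rfl
    · simp [hS, quad3, h, Ne.symm h]; ring
  have hSpsd : S.PosSemidef := (posSemidef_iff_qf hSsymm).2 fun w => by
    rw [hSq]
    linarith [(max_facts hM h1 w).2]
  obtain ⟨k, T₀, hT₀⟩ := exists_sqrt_map hSpsd
  obtain ⟨Λ, -, hΛ, -, -⟩ := exists_compress (d := 3) T₀
    ((LinearMap.finrank_range_le T₀).trans (by simp))
  have hΛq : ∀ w, sumSq (Λ w) = 3 * sumSq w - 2 * qf (quad3 M) w := fun w => by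
    rw [hΛ, hT₀, hSq]
  have hΛinj : Function.Injective Λ := by
    rw [injective_iff_map_eq_zero]
    intro w hw
    by_contra h
    have := hΛq w
    rw [hw] at this
    simp [sumSq] at this
    linarith [hB w h, show sumSq w = ∑ i, w i ^ 2 from rfl]
  set Λe := LinearEquiv.ofInjectiveEndo Λ hΛinj with hΛe
  exact ⟨LinearEquiv.ofInjectiveEndo Λ hΛinj, hΛq⟩

/-- The decomposition along the node. -/
lemma node_dec (M : Fin 4 → Fin 4 → Fin 4 → ℝ) (hM : Bounded3 M) (h1 : M 0 0 0 = 1)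
    (Λ : (Fin 3 → ℝ) ≃ₗ[ℝ] (Fin 3 → ℝ))
    (hΛq : ∀ w, sumSq (Λ w) = 3 * sumSq w - 2 * qf (quad3 M) w) (m : ℝ) (y : Fin 4 → ℝ) :
    pcub M m y = y 0 * (3 * (m - y 0) ^ 2 - sumSq (Λ (Fin.tail y))) +
      pcub (sub3 M) (m - y 0) (Fin.tail y) := by
  have h := tri_cons M (y 0) (Fin.tail y)
  rw [Fin.cons_self_tail, h1, (max_facts hM h1 _).1] at h
  have hs : sumSq y = y 0 ^ 2 + sumSq (Fin.tail y) := by
    simp [sumSq, Fin.sum_univ_succ, Fin.tail]
  simp only [pcub, h, hs, hΛq]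
  ring

/-- On the tangent cone of the node the residual cubic is nonpositive. -/
lemma node_residual (M : Fin 4 → Fin 4 → Fin 4 → ℝ) (hM : Bounded3 M) (h1 : M 0 0 0 = 1)
    (Λ : (Fin 3 → ℝ) ≃ₗ[ℝ] (Fin 3 → ℝ))
    (hΛq : ∀ w, sumSq (Λ w) = 3 * sumSq w - 2 * qf (quad3 M) w) (u : ℝ) (w : Fin 3 → ℝ)
    (hu : 0 ≤ u) (h : 3 * u ^ 2 = sumSq (Λ w)) : pcub (sub3 M) u w ≤ 0 := by
  rcases hu.eq_or_lt with h0 | hpos
  · have hz : Λ w = 0 := sumSq_eq_zero.1 (by rw [← h, ← h0]; ring)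
    have hw : w = 0 := Λ.injective (by rw [hz, map_zero])
    simp [pcub, hw, ← h0, tri]
  · set a := (sumSq w - u ^ 2) / (2 * u) with ha
    have e := node_dec M hM h1 Λ hΛq (a + u) (Fin.cons a w)
    simp only [Fin.cons_zero, Fin.tail_cons, add_sub_cancel_left, h, sub_self, mul_zero,
      zero_add] at e
    rw [← e]
    refine pcub_sphere hM ?_ ?_
    · rw [ha, div_add' _ _ _ (by positivity)]
      exact div_nonneg (by nlinarith [sumSq_nonneg w]) (by positivity)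
    · have : sumSq (Fin.cons a w : Fin 4 → ℝ) = a ^ 2 + sumSq w := by
        simp [sumSq, Fin.sum_univ_succ]
      rw [this, ha]
      field_simp
      ring

/-- Coordinates in which the cubic has a Schur complement form. -/
lemma node_param (M : Fin 4 → Fin 4 → Fin 4 → ℝ) (hM : Bounded3 M) (h1 : M 0 0 0 = 1)
    (Λ : (Fin 3 → ℝ) ≃ₗ[ℝ] (Fin 3 → ℝ))
    (hΛq : ∀ w, sumSq (Λ w) = 3 * sumSq w - 2 * qf (quad3 M) w) :
    ∃ (H : Fin 15 → Fin 4 → Fin 4 → ℝ) (Pm : (ℝ × (Fin 4 → ℝ)) →ₗ[ℝ] (ℝ × (Fin 4 → ℝ))),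
      (∀ m y, (Pm (m, y)).2 0 = Real.sqrt 3 * (m - y 0)) ∧
      (∀ j : Fin 3, (Pm (1, 0)).2 j.succ = 0) ∧
      (∀ m y, (Pm (m, y)).2 0 ^ 2 - ((Pm (m, y)).2 1 ^ 2 + (Pm (m, y)).2 2 ^ 2 +
        (Pm (m, y)).2 3 ^ 2) = 3 * (m - y 0) ^ 2 - sumSq (Λ (Fin.tail y))) ∧
      ∀ m y, pcub M m y =
        (Pm (m, y)).1 * (3 * (m - y 0) ^ 2 - sumSq (Λ (Fin.tail y))) -
          ∑ j, spin ((Pm (m, y)).2 0) ((Pm (m, y)).2 1) ((Pm (m, y)).2 2) ((Pm (m, y)).2 3)
            (lin4 (H j) ((Pm (m, y)).2 0) ((Pm (m, y)).2 1) ((Pm (m, y)).2 2)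
              ((Pm (m, y)).2 3)) := by
  set Lm : (Fin 4 → ℝ) →ₗ[ℝ] (Fin 4 → ℝ) :=
    { toFun := fun z => Fin.cons (z 0 / Real.sqrt 3) (Λ.symm (Fin.tail z))
      map_add' := fun x y => funext fun i => by
        refine Fin.cases ?_ (fun j => ?_) i
        · simp [add_div]
        · simp only [Fin.cons_succ, Pi.add_apply]
          rw [show Fin.tail (x + y) = Fin.tail x + Fin.tail y from rfl, map_add]; rfl
      map_smul' := fun t x => funext fun i => by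
        refine Fin.cases ?_ (fun j => ?_) i
        · simp [mul_div_assoc]
        · simp only [Fin.cons_succ, Pi.smul_apply, RingHom.id_apply]
          rw [show Fin.tail (t • x) = t • Fin.tail x from rfl, map_smul]; rfl } with hLm
  have hs3 : (0 : ℝ) < Real.sqrt 3 := by positivity
  have hs3sq : Real.sqrt 3 ^ 2 = 3 := Real.sq_sqrt (by norm_num)
  set K := triComp (negPcub (sub3 M)) (LinearMap.toMatrix' Lm) with hK
  have hKv : ∀ (u : ℝ) (v : Fin 3 → ℝ), tri K (Fin.cons u v) =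
      -pcub (sub3 M) (u / Real.sqrt 3) (Λ.symm v) := fun u v => by
    rw [hK, tri_triComp, LinearMap.toMatrix'_mulVec, ← tri_negPcub]
    simp [hLm]
  obtain ⟨R, H, l, hRn, hRR, hid⟩ := cone_cubic_general K (fun u v he hu => by
    rw [hKv, Left.nonneg_neg_iff]
    refine node_residual M hM h1 Λ hΛq _ _ (by positivity) ?_
    rw [show Λ (Λ.symm v) = v from Λ.apply_symm_apply v, div_pow, hs3sq, ← he]
    ring)
  -- coordinates
  set Pm : (ℝ × (Fin 4 → ℝ)) →ₗ[ℝ] (ℝ × (Fin 4 → ℝ)) :=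
    LinearMap.prod
      ((LinearMap.proj 0).comp (LinearMap.snd ℝ ℝ (Fin 4 → ℝ)) -
        (∑ i, l i • LinearMap.proj i).comp
          (LinearMap.pi fun i : Fin 4 => (Fin.cases (Real.sqrt 3 • (LinearMap.fst ℝ ℝ (Fin 4 → ℝ) -
            (LinearMap.proj 0).comp (LinearMap.snd ℝ ℝ (Fin 4 → ℝ))))
            (fun j => (LinearMap.proj j).comp ((R.comp Λ.toLinearMap).comp
              ((LinearMap.funLeft ℝ ℝ Fin.succ).comp (LinearMap.snd ℝ ℝ (Fin 4 → ℝ))))) i)))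
      (LinearMap.pi fun i : Fin 4 => (Fin.cases (Real.sqrt 3 • (LinearMap.fst ℝ ℝ (Fin 4 → ℝ) -
            (LinearMap.proj 0).comp (LinearMap.snd ℝ ℝ (Fin 4 → ℝ))))
            (fun j => (LinearMap.proj j).comp ((R.comp Λ.toLinearMap).comp
              ((LinearMap.funLeft ℝ ℝ Fin.succ).comp (LinearMap.snd ℝ ℝ (Fin 4 → ℝ))))) i))
    with hPm
  have hz0 : ∀ m y, (Pm (m, y)).2 0 = Real.sqrt 3 * (m - y 0) := fun m y => by simp [hPm]
  have hzs : ∀ m y (j : Fin 3), (Pm (m, y)).2 j.succ = R (Λ (Fin.tail y)) j := fun m y j => by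
    simp [hPm, LinearMap.funLeft]; rfl
  have hα : ∀ m y, (Pm (m, y)).1 = y 0 - (l 0 * (Pm (m, y)).2 0 + l 1 * (Pm (m, y)).2 1 +
      l 2 * (Pm (m, y)).2 2 + l 3 * (Pm (m, y)).2 3) := fun m y => by
    simp [hPm, Fin.sum_univ_four]
  have hqz : ∀ m y, (Pm (m, y)).2 0 ^ 2 - ((Pm (m, y)).2 1 ^ 2 + (Pm (m, y)).2 2 ^ 2 +
      (Pm (m, y)).2 3 ^ 2) = 3 * (m - y 0) ^ 2 - sumSq (Λ (Fin.tail y)) := fun m y => by
    rw [← hRn, hz0, mul_pow, hs3sq, show (1 : Fin 4) = (0 : Fin 3).succ from rfl,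
      show (2 : Fin 4) = (1 : Fin 3).succ from rfl, show (3 : Fin 4) = (2 : Fin 3).succ from rfl,
      hzs, hzs, hzs]
    simp [sumSq, Fin.sum_univ_three]
  have hp : ∀ m y, pcub M m y =
      (Pm (m, y)).1 * (3 * (m - y 0) ^ 2 - sumSq (Λ (Fin.tail y))) -
        ∑ j, spin ((Pm (m, y)).2 0) ((Pm (m, y)).2 1) ((Pm (m, y)).2 2) ((Pm (m, y)).2 3)
          (lin4 (H j) ((Pm (m, y)).2 0) ((Pm (m, y)).2 1) ((Pm (m, y)).2 2)
            ((Pm (m, y)).2 3)) := by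
    intro m y
    have h := hid ((Pm (m, y)).2 0) ((Pm (m, y)).2 1) ((Pm (m, y)).2 2) ((Pm (m, y)).2 3)
    have hv : R ![(Pm (m, y)).2 1, (Pm (m, y)).2 2, (Pm (m, y)).2 3] = Λ (Fin.tail y) := by
      have : (![(Pm (m, y)).2 1, (Pm (m, y)).2 2, (Pm (m, y)).2 3] : Fin 3 → ℝ) =
          R (Λ (Fin.tail y)) := funext fun j => by
        rw [← hzs m y]; fin_cases j <;> rfl
      rw [this, hRR]
    rw [hKv, hv, hz0, mul_div_cancel_left₀ _ hs3.ne',
      show Λ.symm (Λ (Fin.tail y)) = Fin.tail y from Λ.symm_apply_apply _] at h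
    rw [← hz0, hqz] at h
    rw [node_dec M hM h1 Λ hΛq, hα]
    linear_combination -h
  exact ⟨H, Pm, hz0, fun j => by rw [hzs]; simp [show Fin.tail (0 : Fin 4 → ℝ) = 0 from rfl],
    hqz, hp⟩

/-- The pencil is positive definite exactly on the open cone. -/
lemma node_pd (M : Fin 4 → Fin 4 → Fin 4 → ℝ) (hM : Bounded3 M) (h1 : M 0 0 0 = 1)
    (Λ : (Fin 3 → ℝ) ≃ₗ[ℝ] (Fin 3 → ℝ))
    (hΛq : ∀ w, sumSq (Λ w) = 3 * sumSq w - 2 * qf (quad3 M) w)
    (H : Fin 15 → Fin 4 → Fin 4 → ℝ) (Pm : (ℝ × (Fin 4 → ℝ)) →ₗ[ℝ] (ℝ × (Fin 4 → ℝ)))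
    (hz0 : ∀ m y, (Pm (m, y)).2 0 = Real.sqrt 3 * (m - y 0))
    (hqz : ∀ m y, (Pm (m, y)).2 0 ^ 2 - ((Pm (m, y)).2 1 ^ 2 + (Pm (m, y)).2 2 ^ 2 +
      (Pm (m, y)).2 3 ^ 2) = 3 * (m - y 0) ^ 2 - sumSq (Λ (Fin.tail y)))
    (hp : ∀ m y, pcub M m y =
      (Pm (m, y)).1 * (3 * (m - y 0) ^ 2 - sumSq (Λ (Fin.tail y))) -
        ∑ j, spin ((Pm (m, y)).2 0) ((Pm (m, y)).2 1) ((Pm (m, y)).2 2) ((Pm (m, y)).2 3)
          (lin4 (H j) ((Pm (m, y)).2 0) ((Pm (m, y)).2 1) ((Pm (m, y)).2 2) ((Pm (m, y)).2 3)))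
    (m : ℝ) (y : Fin 4 → ℝ) :
    (∀ x, x ≠ 0 → 0 < qf (pen H (Pm (m, y))) x) ↔
      (0 < m ∧ sumSq y < m ^ 2 ∧ 0 < pcub M m y) := by
  have hs3 : (0 : ℝ) < Real.sqrt 3 := by positivity
  have hop : (0 < m ∧ sumSq y < m ^ 2 ∧ 0 < pcub M m y) ↔
      (0 < m - y 0 ∧ 0 < 3 * (m - y 0) ^ 2 - sumSq (Λ (Fin.tail y)) ∧ 0 < pcub M m y) := by
    have hs : sumSq y = y 0 ^ 2 + sumSq (Fin.tail y) := by
      simp [sumSq, Fin.sum_univ_succ, Fin.tail]
    have hr := sumSq_nonneg (Fin.tail y)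
    constructor
    · rintro ⟨hm, hmy, hp0⟩
      have hu : 0 < m - y 0 := by nlinarith
      refine ⟨hu, ?_, hp0⟩
      by_contra hc
      push Not at hc
      set u₁ := Real.sqrt (sumSq (Λ (Fin.tail y)) / 3) with hu₁
      have hu₁2 : 3 * u₁ ^ 2 = sumSq (Λ (Fin.tail y)) := by
        rw [hu₁, Real.sq_sqrt (by linarith [sumSq_nonneg (Λ (Fin.tail y))])]; ring
      have hle : m - y 0 ≤ u₁ := by nlinarith [Real.sqrt_nonneg (sumSq (Λ (Fin.tail y)) / 3)]
      have e := node_dec M hM h1 Λ hΛq (y 0 + u₁) y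
      rw [add_sub_cancel_left, hu₁2, sub_self, mul_zero, zero_add] at e
      have hk' := node_residual M hM h1 Λ hΛq u₁ (Fin.tail y) (by positivity) hu₁2
      rcases hle.eq_or_lt with he | hlt
      · rw [show y 0 + u₁ = m by linarith] at e
        linarith
      · have := pcub_lt M hm.le hmy.le (show m < y 0 + u₁ by linarith)
        linarith
    · rintro ⟨hu, hq, hp0⟩
      set u := m - y 0 with hu'
      set a₁ := (sumSq (Fin.tail y) - u ^ 2) / (2 * u) with ha₁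
      have ha : a₁ * (2 * u) = sumSq (Fin.tail y) - u ^ 2 := by
        rw [ha₁]; field_simp
      have hm₁ : 0 < a₁ + u := by nlinarith
      by_cases hgt : a₁ < y 0
      · refine ⟨by linarith, ?_, hp0⟩
        rw [hs, show m = y 0 + u by rw [hu']; ring]
        nlinarith [mul_pos (sub_pos.2 hgt) hu]
      · push Not at hgt
        exfalso
        have e := node_dec M hM h1 Λ hΛq (a₁ + u) (Fin.cons a₁ (Fin.tail y))
        have e0 := node_dec M hM h1 Λ hΛq m y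
        simp only [Fin.cons_zero, Fin.tail_cons, add_sub_cancel_left] at e
        have := pcub_sphere (y := Fin.cons a₁ (Fin.tail y)) hM hm₁.le (by
          simp only [sumSq, Fin.sum_univ_succ, Fin.cons_zero, Fin.cons_succ]
          show a₁ ^ 2 + sumSq (Fin.tail y) = _
          linear_combination -ha)
        rw [e] at this
        rw [← hu'] at e0
        nlinarith [mul_le_mul_of_nonneg_right hgt hq.le]
  rw [hop]
  set z := (Pm (m, y)).2 with hzdef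
  set α := (Pm (m, y)).1 with hαdef
  have hΦf : ∀ x, qf (pen H (Pm (m, y))) x = α * x none ^ 2 +
      2 * x none * ∑ j, ∑ i, lin4 (H j) (z 0) (z 1) (z 2) (z 3) i * x (some (j, i)) +
      ∑ j, spin (z 0) (-z 1) (-z 2) (-z 3) fun i => x (some (j, i)) := fun x => qf_pen _ _ _
  set h := fun j => lin4 (H j) (z 0) (z 1) (z 2) (z 3) with hh
  have hpz := hp m y
  rw [← hqz m y, ← hzdef, ← hαdef] at hpz
  rw [← hqz m y, ← hzdef]
  set Q := z 0 ^ 2 - (z 1 ^ 2 + z 2 ^ 2 + z 3 ^ 2) with hQ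
  have hz0' : z 0 = Real.sqrt 3 * (m - y 0) := hz0 m y
  have hpt : ∀ (f : Fin 15 → Fin 4 → ℝ) (t : ℝ), qf (pen H (Pm (m, y))) (fun o => o.elim t fun p => f p.1 p.2) =
      α * t ^ 2 + 2 * t * ∑ j, ∑ i, h j i * f j i +
        ∑ j, spin (z 0) (-z 1) (-z 2) (-z 3) (f j) := fun f t => hΦf _
  constructor
  · intro hpos
    have hblock : ∀ v : Fin 4 → ℝ, v ≠ 0 → 0 < spin (z 0) (-z 1) (-z 2) (-z 3) v := by
      intro v hv
      have hne : (fun o : Ix => o.elim 0 fun p => (Pi.single 0 v : Fin 15 → Fin 4 → ℝ) p.1 p.2) ≠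
          0 := fun he => hv (funext fun i => by simpa using congrFun he (some (0, i)))
      have := hpos _ hne
      rw [hpt] at this
      rw [show ∑ j, spin (z 0) (-z 1) (-z 2) (-z 3) ((Pi.single 0 v : Fin 15 → Fin 4 → ℝ) j) =
          spin (z 0) (-z 1) (-z 2) (-z 3) v by
        rw [Finset.sum_eq_single 0 (fun j _ hj => by simp [hj, spin]) (by simp),
          Pi.single_eq_same]] at this
      simpa using this
    have he0 := hblock ![1, 0, 0, 0] (fun he => by simpa using congrFun he 0)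
    have he2 := hblock ![0, 0, 1, 0] (fun he => by simpa using congrFun he 2)
    simp [spin] at he0 he2
    have hz00 : 0 < z 0 := by linarith
    have hadj := hblock (adjS (z 0) (z 1) (z 2) (z 3) ![1, 0, 0, 0]) (fun he => by
      have := congrFun he 0
      simp [adjS] at this
      linarith)
    rw [spin_adj, ← hQ, show spin (z 0) (z 1) (z 2) (z 3) ![1, 0, 0, 0] = z 0 + z 3 by
      simp [spin]] at hadj
    have hQ0 : 0 < Q := (mul_pos_iff_of_pos_right (by linarith)).1 hadj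
    refine ⟨(mul_pos_iff_of_pos_left hs3).1 (hz0' ▸ hz00), hQ0, ?_⟩
    have hne : (fun o : Ix => o.elim Q fun p =>
        ((-1 : ℝ) • adjS (z 0) (z 1) (z 2) (z 3) (h p.1)) p.2) ≠ 0 := fun he =>
      hQ0.ne' (congrFun he none)
    have := hpos _ hne
    rw [hpt (fun j => (-1 : ℝ) • adjS (z 0) (z 1) (z 2) (z 3) (h j))] at this
    have e1 : ∀ j, ∑ i, h j i * ((-1 : ℝ) • adjS (z 0) (z 1) (z 2) (z 3) (h j)) i =
        -spin (z 0) (z 1) (z 2) (z 3) (h j) := fun j => by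
      rw [← dot_adj, ← Finset.sum_neg_distrib]; simp
    have e2 : ∀ j, spin (z 0) (-z 1) (-z 2) (-z 3)
        ((-1 : ℝ) • adjS (z 0) (z 1) (z 2) (z 3) (h j)) =
        Q * spin (z 0) (z 1) (z 2) (z 3) (h j) := fun j => by
      rw [hQ, ← spin_adj]; simp [spin]
    simp only [e1, e2, Finset.sum_neg_distrib, ← Finset.mul_sum] at this
    refine (mul_pos_iff_of_pos_left hQ0).1 ?_
    rw [hpz]
    linarith
  · rintro ⟨hu, hq, hp0⟩ x hx
    have hz00 : 0 < z 0 := hz0' ▸ mul_pos hs3 hu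
    rw [hΦf]
    have e : ∀ j, spin (z 0) (-z 1) (-z 2) (-z 3)
        ((fun i => x (some (j, i))) + (x none / Q) • adjS (z 0) (z 1) (z 2) (z 3) (h j)) =
        spin (z 0) (-z 1) (-z 2) (-z 3) (fun i => x (some (j, i))) +
          2 * x none * ∑ i, h j i * x (some (j, i)) +
          x none ^ 2 / Q * spin (z 0) (z 1) (z 2) (z 3) (h j) := fun j => by
      rw [spin_shift, ← hQ]
      field_simp
    have hsum := Finset.sum_congr (rfl : (Finset.univ : Finset (Fin 15)) = _) fun j _ => e j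
    simp only [Finset.sum_add_distrib, ← Finset.mul_sum] at hsum
    have htot : α * x none ^ 2 = x none ^ 2 / Q * pcub M m y +
        x none ^ 2 / Q * ∑ j, spin (z 0) (z 1) (z 2) (z 3) (h j) := by
      rw [hpz]; simp only [hh]; field_simp; ring
    have hnn : ∀ v : Fin 4 → ℝ, 0 ≤ spin (z 0) (-z 1) (-z 2) (-z 3) v := fun v => by
      by_cases hv : v = 0
      · simp [hv, spin]
      · exact (spin_pos hz00 (by linarith) hv).le
    by_cases ht : x none = 0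
    · obtain ⟨j, hj⟩ : ∃ j, (fun i => x (some (j, i))) ≠ 0 := by
        by_contra hall
        push Not at hall
        exact hx (funext fun o => by
          rcases o with _ | ⟨j, i⟩
          · exact ht
          · exact congrFun (hall j) i)
      have := Finset.sum_pos' (s := Finset.univ) (fun j _ => hnn fun i => x (some (j, i)))
        ⟨j, Finset.mem_univ j, spin_pos hz00 (by linarith) hj⟩
      simp [ht]
      linarith
    · have h0 : 0 < x none ^ 2 / Q * pcub M m y :=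
        mul_pos (div_pos (by positivity) hq) hp0
      have := Finset.sum_nonneg (s := Finset.univ) fun j _ => hnn
        ((fun i => x (some (j, i))) + (x none / Q) • adjS (z 0) (z 1) (z 2) (z 3) (h j))
      rw [hsum] at this
      linarith

/-- The cubic cone with a nondegenerate node at the first axis is a spectrahedron. -/
theorem node_pencil (M : Fin 4 → Fin 4 → Fin 4 → ℝ) (hM : Bounded3 M) (h1 : M 0 0 0 = 1)
    (hB : ∀ w : Fin 3 → ℝ, w ≠ 0 → 2 * qf (quad3 M) w < 3 * sumSq w) :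
    ∃ A : (Fin 4 → ℝ) →ₗ[ℝ] Matrix Ix Ix ℝ, (∀ y, (A y).IsSymm) ∧
      ∀ m y, InCone M m y ↔ (m • (1 : Matrix Ix Ix ℝ) + A y).PosSemidef := by
  obtain ⟨Λ, hΛq⟩ := node_sqrt M hM h1 hB
  obtain ⟨H, Pm, hz0, hz1, hqz, hp⟩ := node_param M hM h1 Λ hΛq
  have hs3 : (0 : ℝ) < Real.sqrt 3 := by positivity
  have hs3sq : Real.sqrt 3 ^ 2 = 3 := Real.sq_sqrt (by norm_num)
  set Φ : ℝ → (Fin 4 → ℝ) → (Ix → ℝ) → ℝ := fun m y x => qf (pen H (Pm (m, y))) x with hΦ
  have hΦadd : ∀ m y δ x, Φ (m + δ) y x = Φ m y x + δ * Φ 1 0 x := fun m y δ x => by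
    have : ((m + δ, y) : ℝ × (Fin 4 → ℝ)) = (m, y) + δ • ((1 : ℝ), (0 : Fin 4 → ℝ)) := by simp
    simp only [hΦ, this, map_add, map_smul, qf, add_mulVec, smul_mulVec, dotProduct_add,
      dotProduct_smul, smul_eq_mul]
  have hpd : ∀ m y, (∀ x, x ≠ 0 → 0 < Φ m y x) ↔
      (0 < m ∧ sumSq y < m ^ 2 ∧ 0 < pcub M m y) := node_pd M hM h1 Λ hΛq H Pm hz0 hqz hp
  have hbase : 0 < (1 : ℝ) ∧ sumSq (0 : Fin 4 → ℝ) < (1 : ℝ) ^ 2 ∧
      0 < pcub M 1 (0 : Fin 4 → ℝ) := by simp [sumSq, pcub, tri]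
  have hpos1 := (hpd 1 0).2 hbase
  set h₁ : Fin 15 → Fin 4 → ℝ := fun j => lin4 (H j) (Real.sqrt 3) 0 0 0 with hh₁
  set s := Real.sqrt (Real.sqrt 3)⁻¹ with hs
  have hs2 : Real.sqrt 3 * s ^ 2 = 1 := by
    rw [hs, Real.sq_sqrt (by positivity)]; field_simp
  have hs0 : s ≠ 0 := fun h => by simp [h] at hs2
  let Tl : (Ix → ℝ) →ₗ[ℝ] (Ix → ℝ) := LinearMap.pi fun o => o.elim
    (Real.sqrt 3 • LinearMap.proj none)
    fun p => s • LinearMap.proj (some p) - h₁ p.1 p.2 • LinearMap.proj none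
  have hTn : ∀ x, Tl x none = Real.sqrt 3 * x none := fun x => by simp [Tl]
  have hTs : ∀ x p, Tl x (some p) = s * x (some p) - h₁ p.1 p.2 * x none := fun x p => by
    simp [Tl]
  have hone : ∀ x, Φ 1 0 (Tl x) = x ⬝ᵥ x := fun x => by
    have h := hp 1 0
    have e1 : (Pm ((1 : ℝ), (0 : Fin 4 → ℝ))).2 = ![Real.sqrt 3, 0, 0, 0] := funext fun i => by
      refine Fin.cases ?_ (fun j => ?_) i
      · simp [hz0]
      · rw [hz1]
        fin_cases j <;> simp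
    simp only [hΦ, qf_pen, e1]
    rw [show Λ (Fin.tail (0 : Fin 4 → ℝ)) = 0 from map_zero Λ] at h
    simp only [e1, Matrix.cons_val, pcub, sumSq, tri, Pi.zero_apply] at h
    simp only [Matrix.cons_val, hTn, hTs, dotProduct, Fintype.sum_option,
      Fintype.sum_prod_type]
    generalize (Pm ((1 : ℝ), (0 : Fin 4 → ℝ))).1 = α at h
    have e2 : ∀ j, spin (Real.sqrt 3) (-0) (-0) (-0)
        (fun i => s * x (some (j, i)) - h₁ j i * x none) =
        (∑ i, x (some (j, i)) * x (some (j, i))) -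
          2 * Real.sqrt 3 * s * x none * (∑ i, h₁ j i * x (some (j, i))) +
          x none ^ 2 * spin (Real.sqrt 3) 0 0 0 (h₁ j) := fun j => by
      simp [spin, Fin.sum_univ_four]
      linear_combination (x (some (j, 0)) ^ 2 + x (some (j, 1)) ^ 2 + x (some (j, 2)) ^ 2 +
        x (some (j, 3)) ^ 2) * hs2
    have e3 : ∀ j, ∑ i, h₁ j i * (s * x (some (j, i)) - h₁ j i * x none) =
        s * (∑ i, h₁ j i * x (some (j, i))) -
          x none * (spin (Real.sqrt 3) 0 0 0 (h₁ j) / Real.sqrt 3) := fun j => by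
      simp [spin, Fin.sum_univ_four]; field_simp; ring
    simp only [hh₁] at e2 e3 ⊢
    simp only [e2, e3, Finset.sum_add_distrib, Finset.sum_sub_distrib, ← Finset.mul_sum,
      ← Finset.sum_div]
    generalize ∑ j, spin (Real.sqrt 3) 0 0 0 (lin4 (H j) (Real.sqrt 3) 0 0 0) = S at h
    field_simp
    simp at h
    linear_combination (-(x none ^ 2)) * h + α * x none ^ 2 * hs3sq
  have hsurj : ∀ v : Ix → ℝ, ∃ x, Tl x = v := fun v =>
    ⟨fun o => o.elim (v none / Real.sqrt 3)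
        fun p => (v (some p) + h₁ p.1 p.2 * (v none / Real.sqrt 3)) / s,
      funext fun o => by
        rcases o with _ | p
        · rw [hTn]; simp; field_simp
        · rw [hTs]; simp; field_simp; ring⟩
  set T := LinearMap.toMatrix' Tl with hT
  let A : (Fin 4 → ℝ) →ₗ[ℝ] Matrix Ix Ix ℝ :=
    { toFun := fun y => Tᵀ * pen H (Pm (0, y)) * T
      map_add' := fun y y' => by
        rw [show ((0 : ℝ), y + y') = (0, y) + (0, y') by simp, map_add, map_add, Matrix.mul_add,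
          Matrix.add_mul]
      map_smul' := fun c y => by
        rw [show ((0 : ℝ), c • y) = c • ((0 : ℝ), y) by simp, map_smul, map_smul,
          Matrix.mul_smul, Matrix.smul_mul]; rfl }
  have hA : ∀ y, (A y).IsSymm := fun y => by
    simp [A, Matrix.IsSymm, Matrix.mul_assoc, (pen_isSymm H _).eq]
  refine ⟨A, hA, fun m y => ?_⟩
  have hq : ∀ x, qf (m • (1 : Matrix Ix Ix ℝ) + A y) x = Φ m y (Tl x) := fun x => by
    have e : qf (A y) x = Φ 0 y (Tl x) := by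
      show qf (Tᵀ * pen H (Pm (0, y)) * T) x = _
      rw [qf_congr, hT, LinearMap.toMatrix'_mulVec]
    rw [show Φ m y (Tl x) = Φ (0 + m) y (Tl x) by rw [zero_add], hΦadd, hone, ← e]
    simp [qf, add_mulVec, smul_mulVec, dotProduct_add]
    ring
  rw [posSemidef_iff_qf ((Matrix.isSymm_one.smul m).add (hA y))]
  constructor
  · rintro ⟨hm, hmy, hp0⟩ x
    rw [hq]
    by_cases hx : Tl x = 0
    · simp [hx, hΦ, qf]
    have hlim : Filter.Tendsto (fun δ : ℝ => Φ m y (Tl x) + δ * Φ 1 0 (Tl x))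
        (nhdsWithin 0 (Set.Ioi 0)) (nhds (Φ m y (Tl x))) :=
      ((by fun_prop : Continuous fun δ : ℝ => Φ m y (Tl x) + δ * Φ 1 0 (Tl x)).tendsto' 0 _
        (by simp)).mono_left nhdsWithin_le_nhds
    refine ge_of_tendsto hlim (eventually_nhdsWithin_of_forall fun δ (hδ : 0 < δ) => ?_)
    rw [← hΦadd]
    exact ((hpd _ _).2 ⟨by linarith, by nlinarith,
      hp0.trans_lt (pcub_lt M hm hmy (by linarith))⟩ _ hx).le
  · intro hpsd
    have hin : ∀ δ : ℝ, 0 < δ →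
        0 < m + δ ∧ sumSq y < (m + δ) ^ 2 ∧ 0 < pcub M (m + δ) y := fun δ hδ =>
      (hpd _ _).1 fun v hv => by
        obtain ⟨x, rfl⟩ := hsurj v
        rw [hΦadd, ← hq]
        exact add_pos_of_nonneg_of_pos (hpsd x) (mul_pos hδ (hpos1 _ hv))
    have hev : ∀ f : ℝ → ℝ, Continuous f → (∀ δ, 0 < δ → 0 ≤ f δ) → 0 ≤ f 0 := fun f hf hp' =>
      ge_of_tendsto ((hf.tendsto 0).mono_left (nhdsWithin_le_nhds (s := Set.Ioi 0)))
        (eventually_nhdsWithin_of_forall hp')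
    refine ⟨?_, ?_, ?_⟩
    · simpa using hev (fun δ => m + δ) (by fun_prop) fun δ hδ => (hin δ hδ).1.le
    · simpa using hev (fun δ => (m + δ) ^ 2 - sumSq y) (by fun_prop) fun δ hδ =>
        (sub_pos.2 (hin δ hδ).2.1).le
    · simpa using hev (fun δ => pcub M (m + δ) y) (by unfold pcub; fun_prop) fun δ hδ =>
        (hin δ hδ).2.2.le

end Vale.Agent.P256.Cubic
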