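import Vale.Agent.P256.Cubic.Depressed

/-!
Every hyperbolic cubic in at most five variables reduces to the depressed form.
-/

namespace Vale.Agent.P256.Cubic

open Matrix MvPolynomial Module

/-- The trilinear form evaluated in an algebra over the reals. -/
def triA {n : ℕ} {A : Type} [CommRing A] [Algebra ℝ A] (M : Fin n → Fin n → Fin n → ℝ)
    (v : Fin n → A) : A :=
  ∑ i, ∑ j, ∑ l, algebraMap ℝ A (M i j l) * (v i * v j * v l)

/-- A homogeneous cubic is a trilinear form on the diagonal. -/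
lemma exists_tri {n : ℕ} {p : MvPolynomial (Fin n) ℝ} (hp : p.IsHomogeneous 3) :
    ∃ M : Fin n → Fin n → Fin n → ℝ,
      ∀ (A : Type) [CommRing A] [Algebra ℝ A] (v : Fin n → A), aeval v p = triA M v := by
  classical
  suffices H : ∀ S : Finset (Fin n →₀ ℕ), (∀ d ∈ S, d.degree = 3) →
      ∃ M : Fin n → Fin n → Fin n → ℝ, ∀ (A : Type) [CommRing A] [Algebra ℝ A] (v : Fin n → A),
        aeval v (∑ d ∈ S, monomial d (coeff d p)) = triA M v by
    obtain ⟨M, hM⟩ := H p.support fun d hd => by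
      have := hp (mem_support_iff.1 hd)
      simpa [Finsupp.weight_apply, Finsupp.degree_apply, Finsupp.sum] using this
    refine ⟨M, fun A _ _ v => ?_⟩
    rw [← hM A v, ← p.as_sum]
  intro S
  induction S using Finset.induction with
  | empty => exact fun _ => ⟨0, fun A _ _ v => by simp [triA]⟩
  | insert d S hdS ih =>
    intro hS
    obtain ⟨M, hM⟩ := ih fun d' hd' => hS d' (Finset.mem_insert_of_mem hd')
    have hcard : (Finsupp.toMultiset d).card = 3 := by
      rw [Finsupp.card_toMultiset, ← hS d (Finset.mem_insert_self d S)]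
      rfl
    obtain ⟨a, b, c, habc⟩ := Multiset.card_eq_three.1 hcard
    refine ⟨fun i j l => M i j l + if i = a ∧ j = b ∧ l = c then coeff d p else 0,
      fun A _ _ v => ?_⟩
    rw [Finset.sum_insert hdS, map_add, hM, aeval_monomial]
    have hprod : d.prod (fun i k => v i ^ k) = v a * v b * v c := by
      have hd : d = Finsupp.single a 1 + Finsupp.single b 1 + Finsupp.single c 1 := by
        rw [← Finsupp.toMultiset_toFinsupp d, habc, Multiset.insert_eq_cons, Multiset.insert_eq_cons,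
          ← Multiset.singleton_add, ← Multiset.singleton_add, Multiset.toFinsupp_add,
          Multiset.toFinsupp_add]
        simp [Multiset.toFinsupp_singleton, add_assoc]
      rw [hd, Finsupp.prod_add_index' (fun i => pow_zero _) (fun i => pow_add _),
        Finsupp.prod_add_index' (fun i => pow_zero _) (fun i => pow_add _)]
      simp
    rw [hprod]
    simp only [triA, map_add, add_mul, Finset.sum_add_distrib, apply_ite (algebraMap ℝ A),
      map_zero, ite_mul, zero_mul, ite_and]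
    simp [add_comm]

lemma triA_real {n : ℕ} (M : Fin n → Fin n → Fin n → ℝ) (v : Fin n → ℝ) : triA M v = tri M v := by
  simp [triA, tri]

/-- The part of `tri M` of degree one in the variable, polarised at `e`. -/
def polar1 {n : ℕ} (M : Fin n → Fin n → Fin n → ℝ) (e : Fin n → ℝ) :
    (Fin n → ℝ) →ₗ[ℝ] ℝ :=
  ∑ i, ∑ j, ∑ l, M i j l • (e i * e j) • LinearMap.proj l +
    ∑ i, ∑ j, ∑ l, M i j l • (e i * e l) • LinearMap.proj j +
    ∑ i, ∑ j, ∑ l, M i j l • (e j * e l) • LinearMap.proj i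

/-- The matrix of the part of `tri M` of degree two in the variable, polarised at `e`. -/
noncomputable def polar2 {n : ℕ} (M : Fin n → Fin n → Fin n → ℝ) (e : Fin n → ℝ) :
    Matrix (Fin n) (Fin n) ℝ :=
  Matrix.of fun a b => ((∑ k, e k * (M k a b + M a k b + M a b k)) +
    ∑ k, e k * (M k b a + M b k a + M b a k)) / 2

lemma polar2_apply {n : ℕ} (M : Fin n → Fin n → Fin n → ℝ) (e v : Fin n → ℝ) :
    qf (polar2 M e) v = ∑ i, ∑ j, ∑ l,
      M i j l * (e i * v j * v l + v i * e j * v l + v i * v j * e l) := by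
  have h1 : ∀ f : Fin n → Fin n → Fin n → ℝ,
      ∑ a, ∑ b, ∑ k, f k a b = ∑ i, ∑ j, ∑ l, f i j l := fun f => by
    rw [Finset.sum_comm]
    conv_rhs => rw [Finset.sum_comm]
    conv_lhs => rw [Finset.sum_comm]
    exact Finset.sum_congr rfl fun a _ => Finset.sum_comm
  have h2 : ∀ f : Fin n → Fin n → Fin n → ℝ,
      ∑ a, ∑ b, ∑ k, f a k b = ∑ i, ∑ j, ∑ l, f i j l := fun f =>
    Finset.sum_congr rfl fun a _ => Finset.sum_comm
  set g : Fin n → Fin n → ℝ := fun a b => v a * v b * ∑ k, e k * (M k a b + M a k b + M a b k)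
    with hg
  have e1 : qf (polar2 M e) v = ((∑ a, ∑ b, g a b) + ∑ a, ∑ b, g b a) / 2 := by
    simp only [qf, dotProduct, mulVec, polar2, Matrix.of_apply, Finset.mul_sum,
      ← Finset.sum_add_distrib, Finset.sum_div, hg]
    refine Finset.sum_congr rfl fun a _ => Finset.sum_congr rfl fun b _ => ?_
    simp only [← Finset.mul_sum, ← Finset.sum_div, Finset.sum_add_distrib]
    ring
  rw [e1, Finset.sum_comm (f := fun a b => g b a)]
  simp only [add_self_div_two, hg, Finset.mul_sum, mul_add, Finset.sum_add_distrib]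
  rw [h1 fun i j l => v j * v l * (e i * M i j l), h2 fun i j l => v i * v l * (e j * M i j l)]
  simp only [← Finset.sum_add_distrib]
  refine Finset.sum_congr rfl fun a _ => Finset.sum_congr rfl fun b _ =>
    Finset.sum_congr rfl fun c _ => by ring

lemma triA_line {n : ℕ} (M : Fin n → Fin n → Fin n → ℝ) (e v : Fin n → ℝ) (z : ℂ) :
    triA M (fun i => z * (e i : ℂ) - (v i : ℂ)) =
      z ^ 3 * (tri M e : ℂ) - z ^ 2 * (polar1 M e v : ℂ) + z * (qf (polar2 M e) v : ℂ) -
        (tri M v : ℂ) := by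
  rw [polar2_apply]
  simp only [triA, tri, polar1, LinearMap.add_apply, LinearMap.coe_sum, Finset.sum_apply,
    LinearMap.smul_apply, LinearMap.proj_apply, smul_eq_mul, Complex.coe_algebraMap,
    Complex.ofReal_add, Complex.ofReal_sum, Complex.ofReal_mul, Finset.mul_sum, mul_add,
    ← Finset.sum_add_distrib, ← Finset.sum_sub_distrib]
  refine Finset.sum_congr rfl fun a _ => Finset.sum_congr rfl fun b _ =>
    Finset.sum_congr rfl fun c _ => by ring

lemma tri_line {n : ℕ} (M : Fin n → Fin n → Fin n → ℝ) (e v : Fin n → ℝ) (t : ℝ) :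
    tri M (t • e - v) =
      t ^ 3 * tri M e - t ^ 2 * polar1 M e v + t * qf (polar2 M e) v - tri M v := by
  have h := triA_line M e v (t : ℂ)
  have e1 : triA M (fun i => (t : ℂ) * (e i : ℂ) - (v i : ℂ)) = ((tri M (t • e - v) : ℝ) : ℂ) := by
    simp [triA, tri]
  rw [e1] at h
  exact_mod_cast h

/-- A real depressed cubic with only real roots has a nonnegative discriminant. -/
lemma disc_nonneg {Q c : ℝ}
    (h : ∀ s : ℂ, s ^ 3 - 3 * (Q : ℂ) * s - 2 * (c : ℂ) = 0 → s.im = 0) :
    0 ≤ Q ∧ c ^ 2 ≤ Q ^ 3 := by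
  set T := 2 + 3 * |Q| + 2 * |c| with hT
  have hT1 : 2 ≤ T := by linarith [abs_nonneg Q, abs_nonneg c]
  have hcont : Continuous fun s : ℝ => s ^ 3 - 3 * Q * s - 2 * c := by fun_prop
  have hbig : 0 ≤ T ^ 3 - 3 * |Q| * T - 2 * |c| := by
    have h2 : 2 * T ≤ T ^ 2 := by nlinarith
    have h4 : 2 * (T ^ 2 - 3 * |Q|) ≤ T * (T ^ 2 - 3 * |Q|) :=
      mul_le_mul_of_nonneg_right hT1 (by linarith [abs_nonneg Q, abs_nonneg c])
    nlinarith [abs_nonneg Q, abs_nonneg c]
  obtain ⟨r, -, hr⟩ := intermediate_value_Icc (by linarith : -T ≤ T) hcont.continuousOn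
    (⟨by nlinarith [le_abs_self Q, neg_abs_le c],
      by nlinarith [le_abs_self Q, le_abs_self c]⟩ :
      (0 : ℝ) ∈ Set.Icc ((-T) ^ 3 - 3 * Q * (-T) - 2 * c) (T ^ 3 - 3 * Q * T - 2 * c))
  have hr4 : r ^ 2 ≤ 4 * Q := by
    by_contra hlt
    push Not at hlt
    set d := Real.sqrt (3 * r ^ 2 - 12 * Q) with hd
    have hd2 : d ^ 2 = 3 * r ^ 2 - 12 * Q := Real.sq_sqrt (by linarith)
    have hd0 : 0 < d := Real.sqrt_pos.2 (by linarith)
    have := h (((-r / 2 : ℝ) : ℂ) + ((d / 2 : ℝ) : ℂ) * Complex.I) (by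
      apply Complex.ext
      · simp [pow_succ, Complex.mul_re, Complex.mul_im]
        linear_combination (3 / 8 * r : ℝ) * hd2 + hr
      · simp [pow_succ, Complex.mul_re, Complex.mul_im]
        linear_combination (-d / 8 : ℝ) * hd2)
    simp at this
    exact hd0.ne' this
  have hQ : 0 ≤ Q := by nlinarith [sq_nonneg r]
  refine ⟨hQ, ?_⟩
  have hc : c = (r ^ 3 - 3 * Q * r) / 2 := by
    simp only at hr; linarith
  rw [hc]
  nlinarith [mul_nonneg (sub_nonneg.2 hr4) (sq_nonneg (Q - r ^ 2))]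

lemma eq_zero_of_pow_bounded {a K : ℝ} {k : ℕ} (hk : k ≠ 0)
    (h : ∀ s : ℝ, |a * s ^ k| ≤ K) : a = 0 := by
  by_contra ha
  have hK : 0 ≤ K := le_trans (abs_nonneg _) (h 0)
  set s := K / |a| + 1 with hs
  have hs1 : 1 ≤ s := by
    have : 0 ≤ K / |a| := by positivity
    linarith
  have h1 := h s
  rw [abs_mul, abs_of_nonneg (show 0 ≤ s ^ k by positivity)] at h1
  have h2 : |a| * s ≤ |a| * s ^ k :=
    mul_le_mul_of_nonneg_left (le_self_pow₀ hs1 hk) (abs_nonneg a)
  have h3 : |a| * s = K + |a| := by rw [hs]; field_simp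
  linarith [abs_pos.2 ha]

/-- A cubic that is bounded on a line is constant on it. -/
lemma tri_const_line {n : ℕ} (M : Fin n → Fin n → Fin n → ℝ) (x z : Fin n → ℝ) {K : ℝ}
    (h : ∀ s : ℝ, |tri M (x + s • z)| ≤ K) : tri M (x + z) = tri M x := by
  have e : ∀ s : ℝ, tri M (x + s • z) = tri M x + s * qf (polar2 M z) (-x) -
      s ^ 2 * polar1 M z (-x) + s ^ 3 * tri M z := fun s => by
    rw [add_comm x, ← sub_neg_eq_add, tri_line, show -x = (-1 : ℝ) • x by simp, tri_smul]
    ring
  set A := qf (polar2 M z) (-x)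
  set B := polar1 M z (-x)
  set D := tri M z
  set g : ℝ → ℝ := fun s => s * A - s ^ 2 * B + s ^ 3 * D with hgdef
  have hg : ∀ s : ℝ, |g s| ≤ K + |tri M x| := fun s => by
    have e' : g s = tri M (x + s • z) - tri M x := by rw [e s, hgdef]; ring
    rw [e']
    exact (abs_sub _ _).trans (by linarith [h s])
  have hB : B = 0 := eq_zero_of_pow_bounded (K := K + |tri M x|) two_ne_zero fun s => by
    have e' : B * s ^ 2 = -(g s + g (-s)) / 2 := by simp only [hgdef]; ring
    rw [e', abs_div, abs_neg, abs_two]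
    linarith [abs_add_le (g s) (g (-s)), hg s, hg (-s)]
  have hD : D = 0 := eq_zero_of_pow_bounded (K := K + |tri M x|) three_ne_zero fun s => by
    have e' : D * s ^ 3 = (g (2 * s) - 2 * g s) / 6 := by simp only [hgdef, hB]; ring
    rw [e', abs_div, show |(6 : ℝ)| = 6 by norm_num]
    have h2 : |2 * g s| = 2 * |g s| := by rw [abs_mul, abs_two]
    have h6 := abs_sub (g (2 * s)) (2 * g s)
    have hK : 0 ≤ K + |tri M x| := (abs_nonneg _).trans (hg s)
    linarith [hg (2 * s), hg s]
  have hA : A = 0 := eq_zero_of_pow_bounded (K := K + |tri M x|) one_ne_zero fun s => by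
    have e' : A * s ^ 1 = g s := by simp only [hgdef, hB, hD]; ring
    rw [e']; exact hg s
  have := e 1
  rw [one_smul, hA, hB, hD] at this
  linarith

/-- Every hyperbolic cubic in at most five variables has a cone that is a spectrahedral shadow. -/
theorem cubic_shadow {n : ℕ} (hn : n ≤ 5) {p : MvPolynomial (Fin n) ℝ} {e : Fin n → ℝ}
    (h3 : p.IsHomogeneous 3) (hp : IsHyperbolicPoly p e) :
    IsSpectrahedralShadow (hyperbolicityCone p e) := by
  obtain ⟨M, hM⟩ := exists_tri h3
  have hev : ∀ v, eval v p = tri M v := fun v => by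
    rw [← triA_real, ← hM ℝ v]; simp [aeval_eq_eval]
  set c₀ := tri M e with hc₀
  have hc₀pos : 0 < c₀ := by rw [hc₀, ← hev]; exact hp.2.1
  set μ : (Fin n → ℝ) →ₗ[ℝ] ℝ := (3 * c₀)⁻¹ • polar1 M e with hμ
  set P : (Fin n → ℝ) →ₗ[ℝ] (Fin n → ℝ) := LinearMap.id - μ.smulRight e with hP
  have hPx : ∀ x, P x = x - μ x • e := fun x => by simp [hP]
  have hμe : μ e = 1 := by
    have : polar1 M e e = 3 * c₀ := by
      simp only [hc₀, tri, polar1, LinearMap.add_apply, LinearMap.coe_sum, Finset.sum_apply,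
        LinearMap.smul_apply, LinearMap.proj_apply, smul_eq_mul, Finset.mul_sum,
        ← Finset.sum_add_distrib]
      refine Finset.sum_congr rfl fun a _ => Finset.sum_congr rfl fun b _ =>
        Finset.sum_congr rfl fun c _ => by ring
    simp [hμ, this]
    field_simp
  have hP1 : ∀ x, polar1 M e (P x) = 0 := fun x => by
    have hμx : μ (P x) = 0 := by simp [hPx, hμe]
    simpa [hμ, hc₀pos.ne'] using hμx
  have hPe : P e = 0 := by simp [hPx, hμe]
  set Pm := LinearMap.toMatrix' P with hPm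
  set Qm : Matrix (Fin n) (Fin n) ℝ := Pmᵀ * ((-1 / (3 * c₀)) • polar2 M e) * Pm with hQm
  set Mc : Fin n → Fin n → Fin n → ℝ := triComp (fun i j l => M i j l / (2 * c₀)) Pm with hMc
  have hQ : ∀ x, qf Qm x = -(qf (polar2 M e) (P x)) / (3 * c₀) := fun x => by
    rw [hQm, qf_congr, hPm, LinearMap.toMatrix'_mulVec]
    simp [qf, smul_mulVec]; ring
  have hc : ∀ x, tri Mc x = tri M (P x) / (2 * c₀) := fun x => by
    rw [hMc, tri_triComp, hPm, LinearMap.toMatrix'_mulVec]
    simp only [tri, Finset.sum_div]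
    exact Finset.sum_congr rfl fun i _ => Finset.sum_congr rfl fun j _ =>
      Finset.sum_congr rfl fun l _ => by ring
  have hline : ∀ x t, eval (t • e - x) p =
      c₀ * ((t - μ x) ^ 3 - 3 * qf Qm x * (t - μ x) - 2 * tri Mc x) := fun x t => by
    rw [hev, show t • e - x = (t - μ x) • e - P x by rw [hPx]; module, tri_line, hP1, hQ, hc]
    field_simp
    ring
  have hQc : ∀ x, 0 ≤ qf Qm x ∧ tri Mc x ^ 2 ≤ qf Qm x ^ 3 := fun x => disc_nonneg fun s hs => by
    refine hp.2.2 (P x) s ?_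
    rw [hM, triA_line, hP1]
    have e1 : (qf (polar2 M e) (P x) : ℂ) = -3 * (c₀ : ℂ) * (qf Qm x : ℂ) := by
      rw [hQ]; push_cast
      have : (c₀ : ℂ) ≠ 0 := by exact_mod_cast hc₀pos.ne'
      field_simp
    have e2 : (tri M (P x) : ℂ) = 2 * (c₀ : ℂ) * (tri Mc x : ℂ) := by
      rw [hc]; push_cast
      have : (c₀ : ℂ) ≠ 0 := by exact_mod_cast hc₀pos.ne'
      field_simp
    rw [e1, e2, ← hc₀, Complex.ofReal_zero]
    linear_combination (c₀ : ℂ) * hs
  have hQs : Qm.IsSymm := by
    have hs : (polar2 M e).IsSymm := by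
      ext a b; simp [polar2, add_comm]
    simp [hQm, Matrix.IsSymm, Matrix.mul_assoc, hs.eq]
  obtain ⟨m, T, hT⟩ := exists_sqrt_map ((posSemidef_iff_qf hQs).2 fun x => (hQc x).1)
  have hTe : T e = 0 := sumSq_eq_zero.1 (by rw [hT, hQ, hPe]; simp [qf])
  have he : e ≠ 0 := fun he => by
    rw [hc₀, he] at hc₀pos; simp [tri] at hc₀pos
  have hrank : finrank ℝ (LinearMap.range T) ≤ 4 := by
    have h1 := LinearMap.finrank_range_add_finrank_ker T
    have h2 : 1 ≤ finrank ℝ (LinearMap.ker T) := by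
      refine Submodule.one_le_finrank_iff.2 fun hbot => he ?_
      simpa [hbot] using (LinearMap.mem_ker.2 hTe : e ∈ LinearMap.ker T)
    rw [Module.finrank_fin_fun] at h1
    omega
  obtain ⟨Y, g, hY, hgY, hg⟩ := exists_compress T hrank
  set M₄ := triComp Mc (LinearMap.toMatrix' g) with hM₄
  have h4 : ∀ y, tri M₄ y = tri Mc (g y) := fun y => by
    rw [hM₄, tri_triComp, LinearMap.toMatrix'_mulVec]
  have hb : Bounded3 M₄ := fun y => by
    rw [h4]
    refine (hQc _).2.trans ?_
    rw [← hT]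
    exact pow_le_pow_left₀ (sumSq_nonneg _) (hg y) 3
  have hcY : ∀ x, tri M₄ (Y x) = tri Mc x := fun x => by
    rw [h4]
    have hb2 : ∀ s : ℝ, |tri Mc (x + s • (g (Y x) - x))| ≤ Real.sqrt (sumSq (T x) ^ 3) := fun s => by
      have h := (hQc (x + s • (g (Y x) - x))).2
      rw [← hT, map_add, map_smul, hgY, smul_zero, add_zero, ← sq_abs] at h
      exact Real.le_sqrt_of_sq_le h
    have := tri_const_line Mc x (g (Y x) - x) hb2
    rwa [add_sub_cancel] at this
  let L : (Fin n → ℝ) →ₗ[ℝ] (Fin 5 → ℝ) := LinearMap.pi fun i => Fin.cases μ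
    (fun j => (LinearMap.proj j).comp Y) i
  have hLt : ∀ x, Fin.tail (L x) = Y x := fun x => funext fun j => by simp [L, Fin.tail]
  have hset : hyperbolicityCone p e = {x | L x ∈ {x | InCone M₄ (x 0) (Fin.tail x)}} := by
    ext x
    have hL0 : L x 0 = μ x := by simp [L]
    simp only [hyperbolicityCone, Set.mem_ofPred_eq, hLt, hL0, inCone_iff_roots hb]
    have hk : ∀ t, eval (t • e - x) p = -(c₀ * pcub M₄ (μ x - t) (Y x)) := fun t => by
      rw [hline, pcub, hcY, hY, hT]; ring
    simp only [hk, neg_eq_zero, mul_eq_zero, hc₀pos.ne', false_or]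
    constructor
    · intro h s hs
      have := h (μ x - s) (by rwa [sub_sub_cancel])
      linarith
    · intro h t ht
      linarith [h _ ht]
  rw [hset]
  exact Iso.shadow_preimage L (depressed_shadow hb)

end Vale.Agent.P256.Cubic
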