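import Vale.Agent.P256.Cubic.Univ

/-!
Nonnegative ternary quartic forms are sums of squares of quadrics (Hilbert), by an elementary
argument: subtract a multiple of the fourth power of the norm to create a zero.
-/

namespace Vale.Agent.P256.Cubic

/-- The ternary quadric with coefficient vector `q`. -/
def quad (q : Fin 6 → ℝ) (x y z : ℝ) : ℝ :=
  q 0 * x ^ 2 + q 1 * x * y + q 2 * y ^ 2 + q 3 * x * z + q 4 * y * z + q 5 * z ^ 2

/-- The ternary quartic with coefficient vector `c`. -/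
def qform (c : Fin 15 → ℝ) (x y z : ℝ) : ℝ :=
  c 0 * x ^ 4 + c 1 * x ^ 3 * y + c 2 * x ^ 2 * y ^ 2 + c 3 * x * y ^ 3 + c 4 * y ^ 4 +
    z * (c 5 * x ^ 3 + c 6 * x ^ 2 * y + c 7 * x * y ^ 2 + c 8 * y ^ 3) +
    z ^ 2 * (c 9 * x ^ 2 + c 10 * x * y + c 11 * y ^ 2) + z ^ 3 * (c 12 * x + c 13 * y) +
    c 14 * z ^ 4

/-- A nonnegative affine-quadratic function has nonnegative leading coefficient. -/
lemma lead_nonneg {A B D : ℝ} (h : ∀ t, 0 ≤ A * (t * t) + B * t + D) : 0 ≤ A := by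
  by_contra hA
  push Not at hA
  have hpos : 0 < -A := by linarith
  set t := (|B| + |D| + 1) / (-A) + 1 with ht
  have h1 : 1 ≤ t := le_add_of_nonneg_left (by positivity)
  have h2 : A * t + |B| + |D| ≤ -1 + A := by
    have : (-A) * ((|B| + |D| + 1) / (-A)) = |B| + |D| + 1 := mul_div_cancel₀ _ hpos.ne'
    rw [ht]; nlinarith
  have := h t
  have := le_abs_self B
  have := le_abs_self D
  nlinarith [abs_nonneg D, abs_nonneg B]

/-- A function bounded by a positive multiple of the square of a variable has no linear term. -/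
lemma linear_zero {a b c d : ℝ} (h : ∀ t, 0 ≤ a * t + b * t ^ 2 + c * t ^ 3 + d * t ^ 4) : a = 0 := by
  have hc : Continuous fun t : ℝ => a + b * t + c * t ^ 2 + d * t ^ 3 := by fun_prop
  have h0 := hc.tendsto' 0 a (by simp)
  apply le_antisymm
  · refine le_of_tendsto (h0.mono_left (nhdsWithin_le_nhds (s := Set.Iio 0)))
      (eventually_nhdsWithin_of_forall fun t (ht : t < 0) => ?_)
    have := h t
    nlinarith
  · refine ge_of_tendsto (h0.mono_left (nhdsWithin_le_nhds (s := Set.Ioi 0)))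
      (eventually_nhdsWithin_of_forall fun t (ht : 0 < t) => ?_)
    have := h t
    nlinarith

/-- A point of the unit disc with prescribed products against two vectors. -/
lemma exists_comb {p1 q1 p2 q2 G1 G2 : ℝ}
    (hre : p1 ^ 2 - q1 ^ 2 + (p2 ^ 2 - q2 ^ 2) + (G1 ^ 2 - G2 ^ 2) = 0)
    (him : p1 * q1 + p2 * q2 + G1 * G2 = 0) :
    ∃ a1 a2 : ℝ, a1 ^ 2 + a2 ^ 2 ≤ 1 ∧ a1 * p1 + a2 * p2 = -G2 ∧ a1 * q1 + a2 * q2 = G1 := by
  have hsum : G1 ^ 2 + G2 ^ 2 ≤ p1 ^ 2 + p2 ^ 2 + (q1 ^ 2 + q2 ^ 2) := by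
    refine (pow_le_pow_iff_left₀ (by positivity) (by positivity) two_ne_zero).1 ?_
    have e : G1 * G2 = -(p1 * q1 + p2 * q2) := by linarith
    have e' : G1 ^ 2 - G2 ^ 2 = q1 ^ 2 + q2 ^ 2 - (p1 ^ 2 + p2 ^ 2) := by linarith
    have e2 : (G1 ^ 2 + G2 ^ 2) ^ 2 = (G1 ^ 2 - G2 ^ 2) ^ 2 + 4 * (G1 * G2) ^ 2 := by ring
    rw [e2, e, e']
    nlinarith [sq_nonneg (p1 * q2 - p2 * q1)]
  by_cases hN0 : p1 ^ 2 + p2 ^ 2 + G1 ^ 2 = 0
  · exact ⟨0, 0, by norm_num, by nlinarith, by nlinarith⟩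
  have hNp : 0 < p1 ^ 2 + p2 ^ 2 + G1 ^ 2 := lt_of_le_of_ne (by positivity) (Ne.symm hN0)
  refine ⟨(-G2 * p1 + G1 * q1) / (p1 ^ 2 + p2 ^ 2 + G1 ^ 2),
    (-G2 * p2 + G1 * q2) / (p1 ^ 2 + p2 ^ 2 + G1 ^ 2), ?_, ?_, ?_⟩
  · have key : (-G2 * p1 + G1 * q1) ^ 2 + (-G2 * p2 + G1 * q2) ^ 2 =
        (G1 ^ 2 + G2 ^ 2) * (p1 ^ 2 + p2 ^ 2 + G1 ^ 2) := by
      linear_combination -(G1 ^ 2) * hre - 2 * G1 * G2 * him
    rw [div_pow, div_pow, ← add_div, key, div_le_one (by positivity), sq (p1 ^ 2 + p2 ^ 2 + G1 ^ 2)]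
    refine mul_le_mul_of_nonneg_right ?_ hNp.le
    linarith
  · field_simp
    linear_combination G1 * him
  · field_simp
    linear_combination -G1 * hre - G2 * him

/-- A real binary sextic identity read at the point `(1, i)`. -/
lemma sextic_at_imag (g0 g1 g2 g3 d0 d1 d2 d3 d4 r0 r1 r2 r3 s0 s1 s2 s3 : ℝ)
    (h : ∀ x y : ℝ, (x ^ 2 + y ^ 2) * (d0 * x ^ 4 + d1 * x ^ 3 * y + d2 * x ^ 2 * y ^ 2 +
      d3 * x * y ^ 3 + d4 * y ^ 4) - (g0 * x ^ 3 + g1 * x ^ 2 * y + g2 * x * y ^ 2 + g3 * y ^ 3) ^ 2 =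
      (r3 * x ^ 3 + r2 * x ^ 2 * y + r1 * x * y ^ 2 + r0 * y ^ 3) ^ 2 +
        (s3 * x ^ 3 + s2 * x ^ 2 * y + s1 * x * y ^ 2 + s0 * y ^ 3) ^ 2) :
    (r3 - r1) ^ 2 - (r2 - r0) ^ 2 + ((s3 - s1) ^ 2 - (s2 - s0) ^ 2) +
        ((g0 - g2) ^ 2 - (g1 - g3) ^ 2) = 0 ∧
      (r3 - r1) * (r2 - r0) + (s3 - s1) * (s2 - s0) + (g0 - g2) * (g1 - g3) = 0 := by
  constructor
  · linear_combination -(25 / 9 : ℝ) * h 1 0 + (25 / 24 : ℝ) * h 1 1 + (25 / 24 : ℝ) * h 1 (-1)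
      - (1 / 6 : ℝ) * h 1 2 - (1 / 6 : ℝ) * h 1 (-2) + (1 / 72 : ℝ) * h 1 3 + (1 / 72 : ℝ) * h 1 (-3)
  · linear_combination -(25 / 48 : ℝ) * h 1 1 + (25 / 48 : ℝ) * h 1 (-1)
      + (1 / 6 : ℝ) * h 1 2 - (1 / 6 : ℝ) * h 1 (-2) - (1 / 48 : ℝ) * h 1 3 + (1 / 48 : ℝ) * h 1 (-3)

/-- The case where the quadratic part at the zero is the sum of squares of the variables. -/
lemma quartic_std (b0 b1 b2 b3 d0 d1 d2 d3 d4 : ℝ)
    (h : ∀ x y : ℝ, (b0 * x ^ 3 + b1 * x ^ 2 * y + b2 * x * y ^ 2 + b3 * y ^ 3) ^ 2 ≤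
      4 * (x ^ 2 + y ^ 2) * (d0 * x ^ 4 + d1 * x ^ 3 * y + d2 * x ^ 2 * y ^ 2 + d3 * x * y ^ 3 +
        d4 * y ^ 4)) :
    ∃ q : Fin 4 → Fin 6 → ℝ, ∀ x y z : ℝ,
      z ^ 2 * (x ^ 2 + y ^ 2) + z * (b0 * x ^ 3 + b1 * x ^ 2 * y + b2 * x * y ^ 2 + b3 * y ^ 3) +
        (d0 * x ^ 4 + d1 * x ^ 3 * y + d2 * x ^ 2 * y ^ 2 + d3 * x * y ^ 3 + d4 * y ^ 4) =
      ∑ i, quad (q i) x y z ^ 2 := by
  obtain ⟨g0, rfl⟩ : ∃ g, b0 = 2 * g := ⟨b0 / 2, by ring⟩
  obtain ⟨g1, rfl⟩ : ∃ g, b1 = 2 * g := ⟨b1 / 2, by ring⟩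
  obtain ⟨g2, rfl⟩ : ∃ g, b2 = 2 * g := ⟨b2 / 2, by ring⟩
  obtain ⟨g3, rfl⟩ : ∃ g, b3 = 2 * g := ⟨b3 / 2, by ring⟩
  obtain ⟨R, S, hRS⟩ := binary_sextic (d4 - g3 ^ 2) (d3 - 2 * g2 * g3)
    (d4 + d2 - g2 ^ 2 - 2 * g1 * g3) (d3 + d1 - 2 * g1 * g2 - 2 * g0 * g3)
    (d2 + d0 - g1 ^ 2 - 2 * g0 * g2) (d1 - 2 * g0 * g1) (d0 - g0 ^ 2) (fun x y => by
      have := h x y
      linarith)
  have hid : ∀ x y : ℝ, (x ^ 2 + y ^ 2) * (d0 * x ^ 4 + d1 * x ^ 3 * y + d2 * x ^ 2 * y ^ 2 +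
      d3 * x * y ^ 3 + d4 * y ^ 4) - (g0 * x ^ 3 + g1 * x ^ 2 * y + g2 * x * y ^ 2 + g3 * y ^ 3) ^ 2 =
      (R 3 * x ^ 3 + R 2 * x ^ 2 * y + R 1 * x * y ^ 2 + R 0 * y ^ 3) ^ 2 +
        (S 3 * x ^ 3 + S 2 * x ^ 2 * y + S 1 * x * y ^ 2 + S 0 * y ^ 3) ^ 2 :=
    fun x y => by linear_combination hRS x y
  obtain ⟨hre, him⟩ := sextic_at_imag g0 g1 g2 g3 d0 d1 d2 d3 d4 (R 0) (R 1) (R 2) (R 3)
    (S 0) (S 1) (S 2) (S 3) hid
  obtain ⟨a1, a2, ha, hap, haq⟩ := exists_comb hre him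
  clear hre him hRS h
  have hG : ∀ x y : ℝ, g0 * x ^ 3 + g1 * x ^ 2 * y + g2 * x * y ^ 2 + g3 * y ^ 3 =
      x * (g0 * x ^ 2 + (g1 + (a1 * R 3 + a2 * S 3)) * x * y + (a1 * R 0 + a2 * S 0) * y ^ 2) +
      y * (-(a1 * R 3 + a2 * S 3) * x ^ 2 + (g0 - (a1 * R 2 + a2 * S 2)) * x * y + g3 * y ^ 2) :=
    fun x y => by linear_combination x * y ^ 2 * haq
  have hS : ∀ x y : ℝ,
      a1 * (R 3 * x ^ 3 + R 2 * x ^ 2 * y + R 1 * x * y ^ 2 + R 0 * y ^ 3) +
        a2 * (S 3 * x ^ 3 + S 2 * x ^ 2 * y + S 1 * x * y ^ 2 + S 0 * y ^ 3) =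
      y * (g0 * x ^ 2 + (g1 + (a1 * R 3 + a2 * S 3)) * x * y + (a1 * R 0 + a2 * S 0) * y ^ 2) -
      x * (-(a1 * R 3 + a2 * S 3) * x ^ 2 + (g0 - (a1 * R 2 + a2 * S 2)) * x * y + g3 * y ^ 2) :=
    fun x y => by linear_combination -(x * y ^ 2) * hap
  generalize a1 * R 3 + a2 * S 3 = s0 at hG hS
  generalize a1 * R 0 + a2 * S 0 = s3 at hG hS
  generalize g0 - (a1 * R 2 + a2 * S 2) = n1 at hG hS
  generalize g1 + s0 = m1 at hG hS
  have hrest : ∀ x y : ℝ, 0 ≤ (d0 - g0 ^ 2 - s0 ^ 2) * x ^ 4 +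
      (d1 - 2 * g0 * m1 + 2 * s0 * n1) * x ^ 3 * y +
      (d2 - m1 ^ 2 - 2 * g0 * s3 - n1 ^ 2 + 2 * s0 * g3) * x ^ 2 * y ^ 2 +
      (d3 - 2 * m1 * s3 - 2 * n1 * g3) * x * y ^ 3 + (d4 - s3 ^ 2 - g3 ^ 2) * y ^ 4 := by
    intro x y
    by_cases h0 : x = 0 ∧ y = 0
    · rw [h0.1, h0.2]; norm_num
    have hr : 0 < x ^ 2 + y ^ 2 := by
      rcases not_and_or.1 h0 with h0 | h0 <;> positivity
    refine nonneg_of_mul_nonneg_right (a := x ^ 2 + y ^ 2) ?_ hr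
    have e := hid x y
    have hcs : ∀ U W : ℝ, (a1 * U + a2 * W) ^ 2 ≤ U ^ 2 + W ^ 2 := fun U W => by
      have h1 := mul_le_mul_of_nonneg_right ha (by positivity : 0 ≤ U ^ 2 + W ^ 2)
      linarith [sq_nonneg (a1 * W - a2 * U)]
    have hc := hcs (R 3 * x ^ 3 + R 2 * x ^ 2 * y + R 1 * x * y ^ 2 + R 0 * y ^ 3)
      (S 3 * x ^ 3 + S 2 * x ^ 2 * y + S 1 * x * y ^ 2 + S 0 * y ^ 3)
    rw [hS, ← e, hG] at hc
    linear_combination hc
  obtain ⟨u0, u1, u2, v0, v1, v2, huv⟩ := binary_quartic (d4 - s3 ^ 2 - g3 ^ 2)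
    (d3 - 2 * m1 * s3 - 2 * n1 * g3)
    (d2 - m1 ^ 2 - 2 * g0 * s3 - n1 ^ 2 + 2 * s0 * g3) (d1 - 2 * g0 * m1 + 2 * s0 * n1)
    (d0 - g0 ^ 2 - s0 ^ 2) hrest
  refine ⟨![![g0, m1, s3, 1, 0, 0], ![-s0, n1, g3, 0, 1, 0], ![u0, u1, u2, 0, 0, 0],
    ![v0, v1, v2, 0, 0, 0]], fun x y z => ?_⟩
  simp [Fin.sum_univ_four, quad]
  linear_combination huv x y + 2 * z * hG x y

/-- A nonnegative quartic with a zero at `(0, 0, 1)` and no term of degree three in `z`. -/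
lemma quartic_zero (c : Fin 15 → ℝ) (h : ∀ x y z, 0 ≤ qform c x y z)
    (h12 : c 12 = 0) (h13 : c 13 = 0) (h14 : c 14 = 0) :
    ∃ q : Fin 4 → Fin 6 → ℝ, ∀ x y z, qform c x y z = ∑ i, quad (q i) x y z ^ 2 := by
  have hzz : ∀ x y t : ℝ, 0 ≤ (c 9 * x ^ 2 + c 10 * x * y + c 11 * y ^ 2) * (t * t) +
      (c 5 * x ^ 3 + c 6 * x ^ 2 * y + c 7 * x * y ^ 2 + c 8 * y ^ 3) * t +
      (c 0 * x ^ 4 + c 1 * x ^ 3 * y + c 2 * x ^ 2 * y ^ 2 + c 3 * x * y ^ 3 + c 4 * y ^ 4) :=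
    fun x y t => by
      have := h x y t
      simp only [qform, h12, h13, h14] at this
      linarith
  have hA := fun x y => lead_nonneg (hzz x y)
  have hdisc : ∀ x y : ℝ, (c 5 * x ^ 3 + c 6 * x ^ 2 * y + c 7 * x * y ^ 2 + c 8 * y ^ 3) ^ 2 ≤
      4 * (c 9 * x ^ 2 + c 10 * x * y + c 11 * y ^ 2) *
      (c 0 * x ^ 4 + c 1 * x ^ 3 * y + c 2 * x ^ 2 * y ^ 2 + c 3 * x * y ^ 3 + c 4 * y ^ 4) :=
    fun x y => by
      have := discrim_le_zero (hzz x y)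
      rw [discrim] at this
      linarith
  have ha9 : 0 ≤ c 9 := by simpa using hA 1 0
  have ha11 : 0 ≤ c 11 := by simpa using hA 0 1
  rcases eq_or_lt_of_le ha9 with h9 | h9
  · have h10 : c 10 = 0 := by
      refine linear_zero (b := 0) (c := 0) (d := 0) fun t => ?_
      by_cases h11 : c 11 = 0
      · have := hA t 1
        rw [← h9, h11] at this
        linarith
      · have h1 := hA t 1
        have h2 := hA (-(2 * c 11) / c 10) 1
        by_cases hc : c 10 = 0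
        · simp [hc]
        · exfalso
          rw [← h9] at h2
          have e : c 10 * (-(2 * c 11) / c 10) = -(2 * c 11) := mul_div_cancel₀ _ hc
          nlinarith [lt_of_le_of_ne ha11 (Ne.symm h11)]
    rcases eq_or_lt_of_le ha11 with h11 | h11
    · -- no quadratic part: the linear part vanishes too
      have hB : ∀ x y : ℝ, c 5 * x ^ 3 + c 6 * x ^ 2 * y + c 7 * x * y ^ 2 + c 8 * y ^ 3 = 0 :=
        fun x y => by
          have := hdisc x y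
          rw [← h9, h10, ← h11] at this
          exact pow_eq_zero_iff two_ne_zero |>.1 (le_antisymm (by simpa using this) (sq_nonneg _))
      obtain ⟨u0, u1, u2, v0, v1, v2, huv⟩ := binary_quartic (c 4) (c 3) (c 2) (c 1) (c 0)
        (fun x y => by simpa using hzz x y 0)
      refine ⟨![![u0, u1, u2, 0, 0, 0], ![v0, v1, v2, 0, 0, 0], 0, 0], fun x y z => ?_⟩
      simp [Fin.sum_univ_four, quad, qform, h12, h13, h14, ← h9, h10, ← h11]
      linear_combination huv x y + z * hB x y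
    · -- the quadratic part is the square of one variable
      set s := Real.sqrt (c 11) with hs
      have hs2 : s ^ 2 = c 11 := Real.sq_sqrt h11.le
      have hs0 : s ≠ 0 := (Real.sqrt_pos.2 h11).ne'
      have h5 : c 5 = 0 := by
        have := hdisc 1 0
        rw [← h9] at this
        exact pow_eq_zero_iff two_ne_zero |>.1 (le_antisymm (by simpa using this) (sq_nonneg _))
      have hrest : ∀ x y : ℝ, 0 ≤ (c 0 - (c 6 / (2 * s)) ^ 2) * x ^ 4 +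
          (c 1 - 2 * (c 6 / (2 * s)) * (c 7 / (2 * s))) * x ^ 3 * y +
          (c 2 - (c 7 / (2 * s)) ^ 2 - 2 * (c 6 / (2 * s)) * (c 8 / (2 * s))) * x ^ 2 * y ^ 2 +
          (c 3 - 2 * (c 7 / (2 * s)) * (c 8 / (2 * s))) * x * y ^ 3 +
          (c 4 - (c 8 / (2 * s)) ^ 2) * y ^ 4 := by
        have hoff : ∀ x y : ℝ, y ≠ 0 → 0 ≤ (c 0 * x ^ 4 + c 1 * x ^ 3 * y + c 2 * x ^ 2 * y ^ 2 +
            c 3 * x * y ^ 3 + c 4 * y ^ 4) -
            ((c 6 * x ^ 2 + c 7 * x * y + c 8 * y ^ 2) / (2 * s)) ^ 2 := fun x y hy => by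
          have := hdisc x y
          rw [← h9, h10, h5] at this
          rw [sub_nonneg, div_pow, div_le_iff₀ (by positivity), mul_pow, hs2]
          refine le_of_mul_le_mul_right ?_ (by positivity : 0 < y ^ 2)
          linarith
        intro x y
        have hfull : 0 ≤ (c 0 * x ^ 4 + c 1 * x ^ 3 * y + c 2 * x ^ 2 * y ^ 2 +
            c 3 * x * y ^ 3 + c 4 * y ^ 4) -
            ((c 6 * x ^ 2 + c 7 * x * y + c 8 * y ^ 2) / (2 * s)) ^ 2 := by
          by_cases hy : y = 0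
          · subst hy
            have hc : Continuous fun t : ℝ => (c 0 * x ^ 4 + c 1 * x ^ 3 * t + c 2 * x ^ 2 * t ^ 2 +
                c 3 * x * t ^ 3 + c 4 * t ^ 4) -
                ((c 6 * x ^ 2 + c 7 * x * t + c 8 * t ^ 2) / (2 * s)) ^ 2 := by fun_prop
            exact ge_of_tendsto ((hc.tendsto 0).mono_left (nhdsWithin_le_nhds (s := {(0 : ℝ)}ᶜ)))
              (eventually_nhdsWithin_of_forall fun t ht => hoff x t ht)
          · exact hoff x y hy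
        calc 0 ≤ _ := hfull
          _ = _ := by ring
      obtain ⟨u0, u1, u2, v0, v1, v2, huv⟩ := binary_quartic _ _ _ _ _ hrest
      refine ⟨![![c 6 / (2 * s), c 7 / (2 * s), c 8 / (2 * s), 0, s, 0], ![u0, u1, u2, 0, 0, 0],
        ![v0, v1, v2, 0, 0, 0], 0], fun x y z => ?_⟩
      simp [Fin.sum_univ_four, quad, qform, h12, h13, h14, ← h9, h10, h5]
      have e := huv x y
      field_simp at e ⊢
      linear_combination e - 4 * s ^ 2 * z ^ 2 * y ^ 2 * hs2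
  · set α := Real.sqrt (c 9) with hα
    have hα2 : α ^ 2 = c 9 := Real.sq_sqrt h9.le
    have hα0 : α ≠ 0 := (Real.sqrt_pos.2 h9).ne'
    set β := c 10 / (2 * α) with hβ
    have hg : 0 ≤ c 11 - β ^ 2 := by
      have := hA (-(c 10) / (2 * c 9)) 1
      rw [hβ, div_pow, mul_pow, hα2]
      field_simp at this ⊢
      nlinarith
    rcases eq_or_lt_of_le hg with hg0 | hgp
    · -- rank one: reduce to the previous case by the linear substitution
      have hAy : ∀ y : ℝ, c 5 * (-(β / α) * y) ^ 3 + c 6 * (-(β / α) * y) ^ 2 * y +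
          c 7 * (-(β / α) * y) * y ^ 2 + c 8 * y ^ 3 = 0 := fun y => by
        have := hdisc (-(β / α) * y) y
        have hz : c 9 * (-(β / α) * y) ^ 2 + c 10 * (-(β / α) * y) * y + c 11 * y ^ 2 = 0 := by
          rw [show c 11 = β ^ 2 by linarith, ← hα2, show c 10 = 2 * α * β by rw [hβ]; field_simp]
          field_simp; ring
        rw [hz] at this
        exact pow_eq_zero_iff two_ne_zero |>.1 (le_antisymm (by simpa using this) (sq_nonneg _))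
      set w0 := c 5 / α / 2 with hw0
      set w1 := (c 6 - 2 * β * w0) / α / 2 with hw1
      set w2 := (c 7 - 2 * β * w1) / α / 2 with hw2
      have hw : c 8 = 2 * β * w2 := by
        have := hAy 1
        rw [hw2, hw1, hw0]
        field_simp at this ⊢
        linear_combination this
      have hB : ∀ x y : ℝ, c 5 * x ^ 3 + c 6 * x ^ 2 * y + c 7 * x * y ^ 2 + c 8 * y ^ 3 =
          2 * (α * x + β * y) * (w0 * x ^ 2 + w1 * x * y + w2 * y ^ 2) := fun x y => by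
        rw [hw, hw2, hw1, hw0]; field_simp; ring
      have hAq : ∀ x y : ℝ, c 9 * x ^ 2 + c 10 * x * y + c 11 * y ^ 2 = (α * x + β * y) ^ 2 :=
        fun x y => by
          rw [show c 11 = β ^ 2 by linarith, ← hα2, show c 10 = 2 * α * β by rw [hβ]; field_simp]
          ring
      have hoff : ∀ x y : ℝ, α * x + β * y ≠ 0 → 0 ≤ (c 0 * x ^ 4 + c 1 * x ^ 3 * y +
          c 2 * x ^ 2 * y ^ 2 + c 3 * x * y ^ 3 + c 4 * y ^ 4) -
          (w0 * x ^ 2 + w1 * x * y + w2 * y ^ 2) ^ 2 := fun x y hne => by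
        have := hdisc x y
        rw [hAq, hB] at this
        refine sub_nonneg.2 (le_of_mul_le_mul_left ?_ (by positivity : 0 < 4 * (α * x + β * y) ^ 2))
        linarith
      have hrest : ∀ x y : ℝ, 0 ≤ (c 0 - w0 ^ 2) * x ^ 4 + (c 1 - 2 * w0 * w1) * x ^ 3 * y +
          (c 2 - w1 ^ 2 - 2 * w0 * w2) * x ^ 2 * y ^ 2 + (c 3 - 2 * w1 * w2) * x * y ^ 3 +
          (c 4 - w2 ^ 2) * y ^ 4 := fun x y => by
        have hc : Continuous fun t : ℝ => (c 0 * t ^ 4 + c 1 * t ^ 3 * y +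
          c 2 * t ^ 2 * y ^ 2 + c 3 * t * y ^ 3 + c 4 * y ^ 4) -
          (w0 * t ^ 2 + w1 * t * y + w2 * y ^ 2) ^ 2 := by fun_prop
        have : 0 ≤ (c 0 * x ^ 4 + c 1 * x ^ 3 * y + c 2 * x ^ 2 * y ^ 2 + c 3 * x * y ^ 3 +
            c 4 * y ^ 4) - (w0 * x ^ 2 + w1 * x * y + w2 * y ^ 2) ^ 2 := by
          refine ge_of_tendsto ((hc.tendsto x).mono_left (nhdsWithin_le_nhds (s := {x}ᶜ))) ?_
          by_cases hx : α * x + β * y = 0
          · exact eventually_nhdsWithin_of_forall fun t ht => hoff t y fun h0 => ht (by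
              apply mul_left_cancel₀ hα0
              linarith)
          · exact Filter.Eventually.filter_mono nhdsWithin_le_nhds
              ((Continuous.tendsto (by fun_prop : Continuous fun t => α * t + β * y) x).eventually_ne hx
                |>.mono fun t ht => hoff t y ht)
        linarith
      obtain ⟨u0, u1, u2, v0, v1, v2, huv⟩ := binary_quartic _ _ _ _ _ hrest
      refine ⟨![![w0, w1, w2, α, β, 0], ![u0, u1, u2, 0, 0, 0], ![v0, v1, v2, 0, 0, 0], 0],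
        fun x y z => ?_⟩
      simp [Fin.sum_univ_four, quad, qform, h12, h13, h14]
      linear_combination huv x y + z * hB x y + z ^ 2 * hAq x y
    · set γ := Real.sqrt (c 11 - β ^ 2) with hγ
      have hγ2 : γ ^ 2 = c 11 - β ^ 2 := Real.sq_sqrt hg
      have hγ0 : γ ≠ 0 := (Real.sqrt_pos.2 hgp).ne'
      set l := 1 / α with hl
      set m := -β / (α * γ) with hm
      set n := 1 / γ with hn
      have hAq : ∀ x y : ℝ, c 9 * x ^ 2 + c 10 * x * y + c 11 * y ^ 2 =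
          (α * x + β * y) ^ 2 + (γ * y) ^ 2 := fun x y => by
        rw [show c 11 = γ ^ 2 + β ^ 2 by linarith, ← hα2,
          show c 10 = 2 * α * β by rw [hβ]; field_simp]
        ring
      have hsub : ∀ U W : ℝ, c 9 * (l * U + m * W) ^ 2 + c 10 * (l * U + m * W) * (n * W) +
          c 11 * (n * W) ^ 2 = U ^ 2 + W ^ 2 := fun U W => by
        rw [hAq, hl, hm, hn]; field_simp; ring
      obtain ⟨q, hq⟩ := quartic_std (c 5 * l ^ 3)
        (3 * c 5 * l ^ 2 * m + c 6 * l ^ 2 * n)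
        (3 * c 5 * l * m ^ 2 + 2 * c 6 * l * m * n + c 7 * l * n ^ 2)
        (c 5 * m ^ 3 + c 6 * m ^ 2 * n + c 7 * m * n ^ 2 + c 8 * n ^ 3)
        (c 0 * l ^ 4) (4 * c 0 * l ^ 3 * m + c 1 * l ^ 3 * n)
        (6 * c 0 * l ^ 2 * m ^ 2 + 3 * c 1 * l ^ 2 * m * n + c 2 * l ^ 2 * n ^ 2)
        (4 * c 0 * l * m ^ 3 + 3 * c 1 * l * m ^ 2 * n + 2 * c 2 * l * m * n ^ 2 + c 3 * l * n ^ 3)
        (c 0 * m ^ 4 + c 1 * m ^ 3 * n + c 2 * m ^ 2 * n ^ 2 + c 3 * m * n ^ 3 + c 4 * n ^ 4)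
        (fun U W => by
          have := hdisc (l * U + m * W) (n * W)
          rw [hsub] at this
          calc _ = _ := by ring
            _ ≤ _ := this
            _ = _ := by ring)
      refine ⟨fun i => ![q i 0 * α ^ 2, 2 * q i 0 * α * β + q i 1 * α * γ,
        q i 0 * β ^ 2 + q i 1 * β * γ + q i 2 * γ ^ 2, q i 3 * α, q i 3 * β + q i 4 * γ, q i 5],
        fun x y z => ?_⟩
      have e := hq (α * x + β * y) (γ * y) z
      have key : ∀ i, quad (q i) (α * x + β * y) (γ * y) z = quad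
          ![q i 0 * α ^ 2, 2 * q i 0 * α * β + q i 1 * α * γ,
            q i 0 * β ^ 2 + q i 1 * β * γ + q i 2 * γ ^ 2, q i 3 * α, q i 3 * β + q i 4 * γ, q i 5]
          x y z := fun i => by simp [quad]; ring
      simp only [key] at e
      rw [← e, hl, hm, hn]
      simp only [qform, h12, h13, h14]
      rw [hAq]
      field_simp
      ring

/-- The coefficients of `(x, y, z) ↦ qform c (x + a * z) (y + b * z) z`. -/
def shear4 (c : Fin 15 → ℝ) (a b : ℝ) : Fin 15 → ℝ :=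
  ![c 0,
    c 1,
    c 2,
    c 3,
    c 4,
    4 * c 0 * a + c 1 * b + c 5,
    3 * c 1 * a + 2 * c 2 * b + c 6,
    2 * c 2 * a + 3 * c 3 * b + c 7,
    c 3 * a + 4 * c 4 * b + c 8,
    6 * c 0 * a * a + 3 * c 1 * a * b + c 2 * b * b + 3 * c 5 * a + c 6 * b + c 9,
    3 * c 1 * a * a + 4 * c 2 * a * b + 3 * c 3 * b * b + 2 * c 6 * a + 2 * c 7 * b + c 10,
    c 2 * a * a + 3 * c 3 * a * b + 6 * c 4 * b * b + c 7 * a + 3 * c 8 * b + c 11,
    4 * c 0 * a * a * a + 3 * c 1 * a * a * b + 2 * c 2 * a * b * b + c 3 * b * b * b + 3 * c 5 * a * a + 2 * c 6 * a * b + c 7 * b * b + 2 * c 9 * a + c 10 * b + c 12,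
    c 1 * a * a * a + 2 * c 2 * a * a * b + 3 * c 3 * a * b * b + 4 * c 4 * b * b * b + c 6 * a * a + 2 * c 7 * a * b + 3 * c 8 * b * b + c 10 * a + 2 * c 11 * b + c 13,
    c 0 * a * a * a * a + c 1 * a * a * a * b + c 2 * a * a * b * b + c 3 * a * b * b * b + c 4 * b * b * b * b + c 5 * a * a * a + c 6 * a * a * b + c 7 * a * b * b + c 8 * b * b * b + c 9 * a * a + c 10 * a * b + c 11 * b * b + c 12 * a + c 13 * b + c 14]

/-- The coefficients of `(x, y, z) ↦ quad q (x + a * z) (y + b * z) z`. -/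
def shear2 (q : Fin 6 → ℝ) (a b : ℝ) : Fin 6 → ℝ :=
  ![q 0,
    q 1,
    q 2,
    2 * q 0 * a + q 1 * b + q 3,
    q 1 * a + 2 * q 2 * b + q 4,
    q 0 * a * a + q 1 * a * b + q 2 * b * b + q 3 * a + q 4 * b + q 5]

/-- The coefficients of the form with two variables exchanged. -/
def q4Swap02 (c : Fin 15 → ℝ) : Fin 15 → ℝ :=
  ![c 14, c 13, c 11, c 8, c 4, c 12, c 10, c 7, c 3, c 9, c 6, c 2, c 5, c 1, c 0]

/-- The coefficients of the quadric with two variables exchanged. -/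
def q2Swap02 (q : Fin 6 → ℝ) : Fin 6 → ℝ :=
  ![q 5, q 4, q 2, q 3, q 1, q 0]

/-- The coefficients of the form with two variables exchanged. -/
def q4Swap12 (c : Fin 15 → ℝ) : Fin 15 → ℝ :=
  ![c 0, c 5, c 9, c 12, c 14, c 1, c 6, c 10, c 13, c 2, c 7, c 11, c 3, c 8, c 4]

/-- The coefficients of the quadric with two variables exchanged. -/
def q2Swap12 (q : Fin 6 → ℝ) : Fin 6 → ℝ :=
  ![q 0, q 3, q 5, q 1, q 4, q 2]

lemma qform_shear (c : Fin 15 → ℝ) (a b x y z : ℝ) :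
    qform (shear4 c a b) x y z = qform c (x + a * z) (y + b * z) z := by
  simp [qform, shear4]; ring

lemma quad_shear (q : Fin 6 → ℝ) (a b x y z : ℝ) :
    quad (shear2 q a b) x y z = quad q (x + a * z) (y + b * z) z := by
  simp [quad, shear2]; ring

lemma qform_swap02 (c : Fin 15 → ℝ) (x y z : ℝ) : qform (q4Swap02 c) x y z = qform c z y x := by
  simp [qform, q4Swap02]; ring

lemma qform_swap12 (c : Fin 15 → ℝ) (x y z : ℝ) : qform (q4Swap12 c) x y z = qform c x z y := by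
  simp [qform, q4Swap12]; ring

lemma quad_swap02 (q : Fin 6 → ℝ) (x y z : ℝ) : quad (q2Swap02 q) x y z = quad q z y x := by
  simp [quad, q2Swap02]; ring

lemma quad_swap12 (q : Fin 6 → ℝ) (x y z : ℝ) : quad (q2Swap12 q) x y z = quad q x z y := by
  simp [quad, q2Swap12]; ring

lemma quad_scale (q : Fin 6 → ℝ) (t x y z : ℝ) :
    quad q (t * x) (t * y) (t * z) = t ^ 2 * quad q x y z := by simp [quad]; ring

lemma qform_scale (c : Fin 15 → ℝ) (t x y z : ℝ) :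
    qform c (t * x) (t * y) (t * z) = t ^ 4 * qform c x y z := by simp [qform]; ring

lemma quartic_zero_chart (c : Fin 15 → ℝ) (h : ∀ x y z, 0 ≤ qform c x y z) (a b : ℝ)
    (h0 : qform c a b 1 = 0) :
    ∃ q : Fin 4 → Fin 6 → ℝ, ∀ x y z, qform c x y z = ∑ i, quad (q i) x y z ^ 2 := by
  set c' := shear4 c a b
  have h' : ∀ x y z, 0 ≤ qform c' x y z := fun x y z => by rw [qform_shear]; exact h _ _ _
  have h14 : c' 14 = 0 := by
    have := qform_shear c a b 0 0 1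
    simp only [qform] at this h0
    linarith
  have h12 : c' 12 = 0 := linear_zero (b := c' 9) (c := c' 5) (d := c' 0) fun t => by
    have := h' t 0 1
    simp only [qform, h14] at this
    linarith
  have h13 : c' 13 = 0 := linear_zero (b := c' 11) (c := c' 8) (d := c' 4) fun t => by
    have := h' 0 t 1
    simp only [qform, h14] at this
    linarith
  obtain ⟨q, hq⟩ := quartic_zero c' h' h12 h13 h14
  refine ⟨fun i => shear2 (q i) (-a) (-b), fun x y z => ?_⟩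
  have := hq (x + -a * z) (y + -b * z) z
  rw [qform_shear] at this
  simp only [quad_shear]
  rw [← this]
  congr 1 <;> ring

/-- A nonnegative ternary quartic with a nonzero zero is a sum of four squares of quadrics. -/
lemma quartic_of_zero (c : Fin 15 → ℝ) (h : ∀ x y z, 0 ≤ qform c x y z) (p0 p1 p2 : ℝ)
    (hp : p0 ≠ 0 ∨ p1 ≠ 0 ∨ p2 ≠ 0) (h0 : qform c p0 p1 p2 = 0) :
    ∃ q : Fin 4 → Fin 6 → ℝ, ∀ x y z, qform c x y z = ∑ i, quad (q i) x y z ^ 2 := by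
  by_cases h2 : p2 = 0
  · by_cases h1 : p1 = 0
    · have hp0 : p0 ≠ 0 := by simpa [h1, h2] using hp
      obtain ⟨q, hq⟩ := quartic_zero_chart (q4Swap02 c)
        (fun x y z => by rw [qform_swap02]; exact h _ _ _) 0 0 (by
          have := qform_scale c p0⁻¹ p0 p1 p2
          rw [h0, inv_mul_cancel₀ hp0, h1, h2, mul_zero, mul_zero] at this
          rw [qform_swap02]; exact this)
      exact ⟨fun i => q2Swap02 (q i), fun x y z => by
        simp only [quad_swap02]; rw [← hq, qform_swap02]⟩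
    · obtain ⟨q, hq⟩ := quartic_zero_chart (q4Swap12 c)
        (fun x y z => by rw [qform_swap12]; exact h _ _ _) (p1⁻¹ * p0) (p1⁻¹ * p2) (by
          have := qform_scale c p1⁻¹ p0 p1 p2
          rw [h0, inv_mul_cancel₀ h1, mul_zero] at this
          rw [qform_swap12]; exact this)
      exact ⟨fun i => q2Swap12 (q i), fun x y z => by
        simp only [quad_swap12]; rw [← hq, qform_swap12]⟩
  · refine quartic_zero_chart c h (p2⁻¹ * p0) (p2⁻¹ * p1) ?_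
    have := qform_scale c p2⁻¹ p0 p1 p2
    rwa [h0, inv_mul_cancel₀ h2, mul_zero] at this

/-- Hilbert's theorem: a nonnegative ternary quartic is a sum of squares of quadrics. -/
theorem quartic_sos (c : Fin 15 → ℝ) (h : ∀ x y z, 0 ≤ qform c x y z) :
    ∃ q : Fin 10 → Fin 6 → ℝ, ∀ x y z, qform c x y z = ∑ i, quad (q i) x y z ^ 2 := by
  have hK : IsCompact {p : ℝ × ℝ × ℝ | p.1 ^ 2 + p.2.1 ^ 2 + p.2.2 ^ 2 = 1} := by
    refine (isCompact_Icc (a := ((-1 : ℝ), (-1 : ℝ), (-1 : ℝ))) (b := (1, 1, 1))).of_isClosed_subset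
      (isClosed_eq (by fun_prop) continuous_const) fun p hp => ?_
    simp only [Set.mem_setOf_eq] at hp
    refine ⟨⟨?_, ?_, ?_⟩, ⟨?_, ?_, ?_⟩⟩ <;> simp only <;> nlinarith
  obtain ⟨p, hp, hmin⟩ := hK.exists_isMinOn (f := fun p : ℝ × ℝ × ℝ => qform c p.1 p.2.1 p.2.2)
    ⟨(1, 0, 0), by simp⟩ (by unfold qform; fun_prop)
  set m := qform c p.1 p.2.1 p.2.2 with hm
  have hm0 : 0 ≤ m := h _ _ _
  set c' : Fin 15 → ℝ := fun i => c i - m * (![1, 0, 2, 0, 1, 0, 0, 0, 0, 2, 0, 2, 0, 0, 1] : Fin 15 → ℝ) i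
  have hc' : ∀ x y z, qform c' x y z = qform c x y z - m * (x ^ 2 + y ^ 2 + z ^ 2) ^ 2 :=
    fun x y z => by simp [c', qform]; ring
  have h' : ∀ x y z, 0 ≤ qform c' x y z := fun x y z => by
    rw [hc']
    by_cases h0 : x ^ 2 + y ^ 2 + z ^ 2 = 0
    · rw [h0]; simpa using h x y z
    set t := Real.sqrt (x ^ 2 + y ^ 2 + z ^ 2) with ht
    have ht2 : t ^ 2 = x ^ 2 + y ^ 2 + z ^ 2 := Real.sq_sqrt (by positivity)
    have ht0 : t ≠ 0 := fun h1 => h0 (by rw [← ht2, h1]; norm_num)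
    have hin : (t⁻¹ * x) ^ 2 + (t⁻¹ * y) ^ 2 + (t⁻¹ * z) ^ 2 = 1 := by
      field_simp; linarith
    have := isMinOn_iff.1 hmin (t⁻¹ * x, t⁻¹ * y, t⁻¹ * z) hin
    simp only [← hm, qform_scale] at this
    rw [← ht2, show (t ^ 2) ^ 2 = t ^ 4 by ring, sub_nonneg]
    have h4 := mul_le_mul_of_nonneg_right this (by positivity : 0 ≤ t ^ 4)
    calc m * t ^ 4 ≤ _ := h4
      _ = _ := by field_simp
  have hp' : p.1 ^ 2 + p.2.1 ^ 2 + p.2.2 ^ 2 = 1 := hp
  obtain ⟨q, hq⟩ := quartic_of_zero c' h' p.1 p.2.1 p.2.2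
    (by by_contra h0; push Not at h0; rw [h0.1, h0.2.1, h0.2.2] at hp'; norm_num at hp')
    (by rw [hc', hp', ← hm]; ring)
  set s := Real.sqrt m with hs
  have hs2 : s ^ 2 = m := Real.sq_sqrt hm0
  have h22 : Real.sqrt 2 ^ 2 = 2 := Real.sq_sqrt (by norm_num)
  refine ⟨![q 0, q 1, q 2, q 3, ![s, 0, 0, 0, 0, 0], ![0, s * Real.sqrt 2, 0, 0, 0, 0],
    ![0, 0, s, 0, 0, 0], ![0, 0, 0, s * Real.sqrt 2, 0, 0], ![0, 0, 0, 0, s * Real.sqrt 2, 0],
    ![0, 0, 0, 0, 0, s]], fun x y z => ?_⟩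
  have e := hq x y z
  rw [hc', Fin.sum_univ_four] at e
  simp [Fin.sum_univ_succ]
  simp [quad] at e ⊢
  ring_nf at e ⊢
  rw [h22, hs2]
  linear_combination e

end Vale.Agent.P256.Cubic
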