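import Vale.Agent.P256.Cubic.Quartic

/-!
Cubics that are nonnegative on the circular cone in four variables: with a zero on the cone they
are sums of spinor squares up to a multiple of the quadratic form of the cone.
-/

namespace Vale.Agent.P256.Cubic

/-- The spinor square attached to a point `(u, a, b, c)`. -/
def spin (u a b c : ℝ) (h : Fin 4 → ℝ) : ℝ :=
  u * (h 0 ^ 2 + h 1 ^ 2 + h 2 ^ 2 + h 3 ^ 2) +
    c * (h 0 ^ 2 + h 1 ^ 2 - h 2 ^ 2 - h 3 ^ 2) +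
    2 * a * (h 0 * h 2 + h 1 * h 3) + 2 * b * (h 0 * h 3 - h 1 * h 2)

/-- A linear spinor evaluated at a point. -/
def lin4 (H : Fin 4 → Fin 4 → ℝ) (u a b c : ℝ) : Fin 4 → ℝ :=
  fun i => H i 0 * u + H i 1 * a + H i 2 * b + H i 3 * c

/-- The cubic form in four variables with coefficient vector `k`. -/
def cform (k : Fin 20 → ℝ) (u a b c : ℝ) : ℝ :=
  k 0 * (u ^ 3) +
    k 1 * (u ^ 2 * a) +
    k 2 * (u ^ 2 * b) +
    k 3 * (u ^ 2 * c) +
    k 4 * (u * a ^ 2) +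
    k 5 * (u * a * b) +
    k 6 * (u * a * c) +
    k 7 * (u * b ^ 2) +
    k 8 * (u * b * c) +
    k 9 * (u * c ^ 2) +
    k 10 * (a ^ 3) +
    k 11 * (a ^ 2 * b) +
    k 12 * (a ^ 2 * c) +
    k 13 * (a * b ^ 2) +
    k 14 * (a * b * c) +
    k 15 * (a * c ^ 2) +
    k 16 * (b ^ 3) +
    k 17 * (b ^ 2 * c) +
    k 18 * (b * c ^ 2) +
    k 19 * (c ^ 3)

/-- The coefficient vector of a trilinear form on the diagonal. -/
def triCoeff (M : Fin 4 → Fin 4 → Fin 4 → ℝ) : Fin 20 → ℝ :=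
  ![M 0 0 0,
    M 0 0 1 + M 0 1 0 + M 1 0 0,
    M 0 0 2 + M 0 2 0 + M 2 0 0,
    M 0 0 3 + M 0 3 0 + M 3 0 0,
    M 0 1 1 + M 1 0 1 + M 1 1 0,
    M 0 1 2 + M 0 2 1 + M 1 0 2 + M 1 2 0 + M 2 0 1 + M 2 1 0,
    M 0 1 3 + M 0 3 1 + M 1 0 3 + M 1 3 0 + M 3 0 1 + M 3 1 0,
    M 0 2 2 + M 2 0 2 + M 2 2 0,
    M 0 2 3 + M 0 3 2 + M 2 0 3 + M 2 3 0 + M 3 0 2 + M 3 2 0,
    M 0 3 3 + M 3 0 3 + M 3 3 0,
    M 1 1 1,
    M 1 1 2 + M 1 2 1 + M 2 1 1,
    M 1 1 3 + M 1 3 1 + M 3 1 1,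
    M 1 2 2 + M 2 1 2 + M 2 2 1,
    M 1 2 3 + M 1 3 2 + M 2 1 3 + M 2 3 1 + M 3 1 2 + M 3 2 1,
    M 1 3 3 + M 3 1 3 + M 3 3 1,
    M 2 2 2,
    M 2 2 3 + M 2 3 2 + M 3 2 2,
    M 2 3 3 + M 3 2 3 + M 3 3 2,
    M 3 3 3]

/-- The quartic obtained from a cubic in the stereographic parametrisation. -/
def stereo (k : Fin 20 → ℝ) : Fin 15 → ℝ :=
  ![(3) * k 0 + (4) * k 12 + (-3) * k 19 + k 3 + (4) * k 4 + (-1) * k 9,
    (4) * k 14 + (4) * k 5,
    (6) * k 0 + (4) * k 12 + (4) * k 17 + (-6) * k 19 + (2) * k 3 + (4) * k 4 + (4) * k 7 + (-2) * k 9,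
    (4) * k 14 + (4) * k 5,
    (3) * k 0 + (4) * k 17 + (-3) * k 19 + k 3 + (4) * k 7 + (-1) * k 9,
    (4) * k 1 + (8) * k 10 + (-4) * k 15,
    (8) * k 11 + (-4) * k 18 + (4) * k 2,
    (4) * k 1 + (8) * k 13 + (-4) * k 15,
    (8) * k 16 + (-4) * k 18 + (4) * k 2,
    (3) * k 0 + (-4) * k 12 + (3) * k 19 + (-1) * k 3 + (4) * k 4 + (-1) * k 9,
    (-4) * k 14 + (4) * k 5,
    (3) * k 0 + (-4) * k 17 + (3) * k 19 + (-1) * k 3 + (4) * k 7 + (-1) * k 9,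
    (2) * k 1 + (2) * k 15 + (-2) * k 6,
    (2) * k 18 + (2) * k 2 + (-2) * k 8,
    k 0 + (-1) * k 19 + (-1) * k 3 + k 9]

/-- The coefficient vector of the cubic `y ↦ spin y (H *ᵥ y)`. -/
def spinCoeff (H : Fin 4 → Fin 4 → ℝ) : Fin 20 → ℝ :=
  ![H 0 0 * H 0 0 + H 1 0 * H 1 0 + H 2 0 * H 2 0 + H 3 0 * H 3 0,
    (2) * H 0 0 * H 0 1 + (2) * H 0 0 * H 2 0 + (2) * H 1 0 * H 1 1 + (2) * H 1 0 * H 3 0 + (2) * H 2 0 * H 2 1 + (2) * H 3 0 * H 3 1,
    (2) * H 0 0 * H 0 2 + (2) * H 0 0 * H 3 0 + (2) * H 1 0 * H 1 2 + (-2) * H 1 0 * H 2 0 + (2) * H 2 0 * H 2 2 + (2) * H 3 0 * H 3 2,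
    H 0 0 * H 0 0 + (2) * H 0 0 * H 0 3 + H 1 0 * H 1 0 + (2) * H 1 0 * H 1 3 + (-1) * H 2 0 * H 2 0 + (2) * H 2 0 * H 2 3 + (-1) * H 3 0 * H 3 0 + (2) * H 3 0 * H 3 3,
    (2) * H 0 0 * H 2 1 + H 0 1 * H 0 1 + (2) * H 0 1 * H 2 0 + (2) * H 1 0 * H 3 1 + H 1 1 * H 1 1 + (2) * H 1 1 * H 3 0 + H 2 1 * H 2 1 + H 3 1 * H 3 1,
    (2) * H 0 0 * H 2 2 + (2) * H 0 0 * H 3 1 + (2) * H 0 1 * H 0 2 + (2) * H 0 1 * H 3 0 + (2) * H 0 2 * H 2 0 + (-2) * H 1 0 * H 2 1 + (2) * H 1 0 * H 3 2 + (2) * H 1 1 * H 1 2 + (-2) * H 1 1 * H 2 0 + (2) * H 1 2 * H 3 0 + (2) * H 2 1 * H 2 2 + (2) * H 3 1 * H 3 2,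
    (2) * H 0 0 * H 0 1 + (2) * H 0 0 * H 2 3 + (2) * H 0 1 * H 0 3 + (2) * H 0 3 * H 2 0 + (2) * H 1 0 * H 1 1 + (2) * H 1 0 * H 3 3 + (2) * H 1 1 * H 1 3 + (2) * H 1 3 * H 3 0 + (-2) * H 2 0 * H 2 1 + (2) * H 2 1 * H 2 3 + (-2) * H 3 0 * H 3 1 + (2) * H 3 1 * H 3 3,
    (2) * H 0 0 * H 3 2 + H 0 2 * H 0 2 + (2) * H 0 2 * H 3 0 + (-2) * H 1 0 * H 2 2 + H 1 2 * H 1 2 + (-2) * H 1 2 * H 2 0 + H 2 2 * H 2 2 + H 3 2 * H 3 2,
    (2) * H 0 0 * H 0 2 + (2) * H 0 0 * H 3 3 + (2) * H 0 2 * H 0 3 + (2) * H 0 3 * H 3 0 + (2) * H 1 0 * H 1 2 + (-2) * H 1 0 * H 2 3 + (2) * H 1 2 * H 1 3 + (-2) * H 1 3 * H 2 0 + (-2) * H 2 0 * H 2 2 + (2) * H 2 2 * H 2 3 + (-2) * H 3 0 * H 3 2 + (2) * H 3 2 * H 3 3,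
    (2) * H 0 0 * H 0 3 + H 0 3 * H 0 3 + (2) * H 1 0 * H 1 3 + H 1 3 * H 1 3 + (-2) * H 2 0 * H 2 3 + H 2 3 * H 2 3 + (-2) * H 3 0 * H 3 3 + H 3 3 * H 3 3,
    (2) * H 0 1 * H 2 1 + (2) * H 1 1 * H 3 1,
    (2) * H 0 1 * H 2 2 + (2) * H 0 1 * H 3 1 + (2) * H 0 2 * H 2 1 + (-2) * H 1 1 * H 2 1 + (2) * H 1 1 * H 3 2 + (2) * H 1 2 * H 3 1,
    H 0 1 * H 0 1 + (2) * H 0 1 * H 2 3 + (2) * H 0 3 * H 2 1 + H 1 1 * H 1 1 + (2) * H 1 1 * H 3 3 + (2) * H 1 3 * H 3 1 + (-1) * H 2 1 * H 2 1 + (-1) * H 3 1 * H 3 1,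
    (2) * H 0 1 * H 3 2 + (2) * H 0 2 * H 2 2 + (2) * H 0 2 * H 3 1 + (-2) * H 1 1 * H 2 2 + (-2) * H 1 2 * H 2 1 + (2) * H 1 2 * H 3 2,
    (2) * H 0 1 * H 0 2 + (2) * H 0 1 * H 3 3 + (2) * H 0 2 * H 2 3 + (2) * H 0 3 * H 2 2 + (2) * H 0 3 * H 3 1 + (2) * H 1 1 * H 1 2 + (-2) * H 1 1 * H 2 3 + (2) * H 1 2 * H 3 3 + (-2) * H 1 3 * H 2 1 + (2) * H 1 3 * H 3 2 + (-2) * H 2 1 * H 2 2 + (-2) * H 3 1 * H 3 2,
    (2) * H 0 1 * H 0 3 + (2) * H 0 3 * H 2 3 + (2) * H 1 1 * H 1 3 + (2) * H 1 3 * H 3 3 + (-2) * H 2 1 * H 2 3 + (-2) * H 3 1 * H 3 3,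
    (2) * H 0 2 * H 3 2 + (-2) * H 1 2 * H 2 2,
    H 0 2 * H 0 2 + (2) * H 0 2 * H 3 3 + (2) * H 0 3 * H 3 2 + H 1 2 * H 1 2 + (-2) * H 1 2 * H 2 3 + (-2) * H 1 3 * H 2 2 + (-1) * H 2 2 * H 2 2 + (-1) * H 3 2 * H 3 2,
    (2) * H 0 2 * H 0 3 + (2) * H 0 3 * H 3 3 + (2) * H 1 2 * H 1 3 + (-2) * H 1 3 * H 2 3 + (-2) * H 2 2 * H 2 3 + (-2) * H 3 2 * H 3 3,
    H 0 3 * H 0 3 + H 1 3 * H 1 3 + (-1) * H 2 3 * H 2 3 + (-1) * H 3 3 * H 3 3]

lemma cform_triCoeff (M : Fin 4 → Fin 4 → Fin 4 → ℝ) (u a b c : ℝ) :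
    cform (triCoeff M) u a b c = ∑ i, ∑ j, ∑ l, M i j l * (![u, a, b, c] i * ![u, a, b, c] j *
      ![u, a, b, c] l) := by
  simp [cform, triCoeff, Fin.sum_univ_four]; ring

lemma cform_spinCoeff (H : Fin 4 → Fin 4 → ℝ) (u a b c : ℝ) :
    cform (spinCoeff H) u a b c = spin u a b c (lin4 H u a b c) := by
  simp [cform, spinCoeff, spin, lin4]; ring

lemma cform_neg (k : Fin 20 → ℝ) (u a b c : ℝ) :
    cform k (-u) (-a) (-b) (-c) = -cform k u a b c := by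
  simp [cform]; ring

lemma cform_sub (k k' : Fin 20 → ℝ) (u a b c : ℝ) :
    cform (k - k') u a b c = cform k u a b c - cform k' u a b c := by
  simp [cform]; ring

lemma cform_sum {ι : Type*} (s : Finset ι) (k : ι → Fin 20 → ℝ) (u a b c : ℝ) :
    cform (∑ j ∈ s, k j) u a b c = ∑ j ∈ s, cform (k j) u a b c := by
  simp only [cform, Finset.sum_apply, Finset.sum_mul, ← Finset.sum_add_distrib]

lemma cform_stereo (k : Fin 20 → ℝ) (x y z : ℝ) :
    cform k (z ^ 2 + (x ^ 2 + y ^ 2)) (2 * x * z) (2 * y * z) (x ^ 2 + y ^ 2 - z ^ 2) =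
      (x ^ 2 + y ^ 2) ^ 3 * (k 0 + k 3 + k 9 + k 19) +
        2 * z * (x ^ 2 + y ^ 2) ^ 2 * (x * (k 1 + k 6 + k 15) + y * (k 2 + k 8 + k 18)) +
        z ^ 2 * qform (stereo k) x y z := by
  simp [cform, stereo, qform]; ring

/-- A cubic vanishing on both sheets of the cone is a multiple of its quadratic form. -/
lemma cform_divide (k : Fin 20 → ℝ)
    (h : ∀ u a b c : ℝ, u ^ 2 = a ^ 2 + b ^ 2 + c ^ 2 → cform k u a b c = 0) :
    ∀ u a b c : ℝ, cform k u a b c =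
      (k 0 * u + k 1 * a + k 2 * b + k 3 * c) * (u ^ 2 - (a ^ 2 + b ^ 2 + c ^ 2)) := by
  intro u a b c
  by_cases h0 : a ^ 2 + b ^ 2 + c ^ 2 = 0
  · have ha : a = 0 := by nlinarith
    have hb : b = 0 := by nlinarith
    have hc : c = 0 := by nlinarith
    subst ha hb hc
    simp [cform]; ring
  set t := Real.sqrt (a ^ 2 + b ^ 2 + c ^ 2) with ht
  have ht2 : t ^ 2 = a ^ 2 + b ^ 2 + c ^ 2 := Real.sq_sqrt (by positivity)
  have ht0 : t ≠ 0 := fun e => h0 (by rw [← ht2, e]; norm_num)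
  have h1 := h t a b c ht2
  have h2 := h (-t) a b c (by rw [neg_sq, ht2])
  have hodd : k 0 * t ^ 2 + (k 4 * a ^ 2 + k 5 * (a * b) + k 6 * (a * c) + k 7 * b ^ 2 +
      k 8 * (b * c) + k 9 * c ^ 2) = 0 := by
    refine (mul_eq_zero.1 ?_).resolve_left (mul_ne_zero two_ne_zero ht0)
    simp only [cform] at h1 h2
    linear_combination h1 - h2
  simp only [cform] at h1 h2 ⊢
  linear_combination u * hodd + (1 / 2 : ℝ) * h1 + (1 / 2 : ℝ) * h2
    - (k 0 * u + k 1 * a + k 2 * b + k 3 * c) * ht2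

/-- The linear spinor attached to a complex quadric with no antiholomorphic top term. -/
noncomputable def liftSpinor (p q : Fin 6 → ℝ) : Fin 4 → Fin 4 → ℝ :=
  let A := (p 0 - p 2 + q 1) / 4
  let A' := (q 0 - q 2 - p 1) / 4
  let s := Real.sqrt 2 / 2
  ![![0, s * A / 2, -(s * A') / 2, 0],
    ![0, s * A' / 2, s * A / 2, 0],
    ![s * (p 5 / 2 + (p 0 + p 2) / 4), s * p 3 / 2, s * p 4 / 2, s * (-(p 5) / 2 + (p 0 + p 2) / 4)],
    ![s * (q 5 / 2 + (q 0 + q 2) / 4), s * q 3 / 2, s * q 4 / 2, s * (-(q 5) / 2 + (q 0 + q 2) / 4)]]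

lemma spin_lift {p q : Fin 6 → ℝ} (h1 : p 0 - p 2 - q 1 = 0) (h2 : p 1 + q 0 - q 2 = 0)
    (x y z : ℝ) :
    cform (spinCoeff (liftSpinor p q)) (z ^ 2 + (x ^ 2 + y ^ 2)) (2 * x * z) (2 * y * z)
      (x ^ 2 + y ^ 2 - z ^ 2) = z ^ 2 * (quad p x y z ^ 2 + quad q x y z ^ 2) := by
  have e : Real.sqrt 2 ^ 2 = 2 := Real.sq_sqrt (by norm_num)
  have hp : p 0 = p 2 + q 1 := by linarith
  have hq : q 0 = q 2 - p 1 := by linarith
  rw [cform_spinCoeff]
  simp [spin, lin4, liftSpinor, quad, hp, hq]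
  ring_nf
  rw [e]
  ring

lemma spin_lift_pole (p q : Fin 6 → ℝ) (t : ℝ) :
    cform (spinCoeff (liftSpinor p q)) t 0 0 t = 0 := by
  rw [cform_spinCoeff]
  simp [spin, lin4, liftSpinor]
  ring

/-- The value at `(1, i)` of the square of a binary quadratic, read off real values. -/
lemma sq_at_imag (q : Fin 6 → ℝ) :
    (q 0 - q 2) ^ 2 - q 1 ^ 2 = 2 * quad q 1 0 0 ^ 2 + 2 * quad q 0 1 0 ^ 2
        - (quad q 1 1 0 ^ 2 + quad q 1 (-1) 0 ^ 2) / 2 ∧
      2 * ((q 0 - q 2) * q 1) = 5 / 6 * (quad q 1 1 0 ^ 2 - quad q 1 (-1) 0 ^ 2)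
        - (quad q 1 2 0 ^ 2 - quad q 1 (-2) 0 ^ 2) / 6 := by
  constructor <;> (simp [quad]; ring)

/-- A cubic nonnegative on the upper cone with a zero at `(1, 0, 0, 1)` is a sum of eleven spinor
squares plus a multiple of the quadratic form of the cone. -/
theorem cone_cubic (k : Fin 20 → ℝ)
    (hk : ∀ u a b c : ℝ, u ^ 2 = a ^ 2 + b ^ 2 + c ^ 2 → 0 ≤ u → 0 ≤ cform k u a b c)
    (h0 : cform k 1 0 0 1 = 0) :
    ∃ (H : Fin 11 → Fin 4 → Fin 4 → ℝ) (l : Fin 4 → ℝ), ∀ u a b c : ℝ, cform k u a b c =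
      ∑ j, spin u a b c (lin4 (H j) u a b c) +
        (l 0 * u + l 1 * a + l 2 * b + l 3 * c) * (u ^ 2 - (a ^ 2 + b ^ 2 + c ^ 2)) := by
  have hK : k 0 + k 3 + k 9 + k 19 = 0 := by simpa [cform, add_assoc] using h0
  have hpar : ∀ x y z : ℝ, 0 ≤ cform k (z ^ 2 + (x ^ 2 + y ^ 2)) (2 * x * z) (2 * y * z)
      (x ^ 2 + y ^ 2 - z ^ 2) :=
    fun x y z => hk _ _ _ _ (by ring) (by positivity)
  have hlin : ∀ x y : ℝ, x ^ 2 + y ^ 2 = 1 →
      x * (k 1 + k 6 + k 15) + y * (k 2 + k 8 + k 18) = 0 := fun x y hxy => by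
    have hc : Continuous fun z : ℝ => 2 * (x * (k 1 + k 6 + k 15) + y * (k 2 + k 8 + k 18)) +
        z * qform (stereo k) x y z := by unfold qform; fun_prop
    have hlim := hc.tendsto' 0 (2 * (x * (k 1 + k 6 + k 15) + y * (k 2 + k 8 + k 18))) (by simp)
    have hv : ∀ z : ℝ, 0 ≤ z * (2 * (x * (k 1 + k 6 + k 15) + y * (k 2 + k 8 + k 18)) +
        z * qform (stereo k) x y z) := fun z => by
      have := hpar x y z
      rw [cform_stereo, hK, hxy] at this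
      linarith
    have a1 : 0 ≤ 2 * (x * (k 1 + k 6 + k 15) + y * (k 2 + k 8 + k 18)) :=
      ge_of_tendsto (hlim.mono_left (nhdsWithin_le_nhds (s := Set.Ioi 0)))
        (eventually_nhdsWithin_of_forall fun z (hz : 0 < z) => nonneg_of_mul_nonneg_right (hv z) hz)
    have a2 : 2 * (x * (k 1 + k 6 + k 15) + y * (k 2 + k 8 + k 18)) ≤ 0 :=
      le_of_tendsto (hlim.mono_left (nhdsWithin_le_nhds (s := Set.Iio 0)))
        (eventually_nhdsWithin_of_forall fun z (hz : z < 0) => by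
          have := hv z
          nlinarith)
    linarith
  have hL0 : k 1 + k 6 + k 15 = 0 := by simpa using hlin 1 0 (by norm_num)
  have hL1 : k 2 + k 8 + k 18 = 0 := by simpa using hlin 0 1 (by norm_num)
  have hval : ∀ x y z : ℝ, cform k (z ^ 2 + (x ^ 2 + y ^ 2)) (2 * x * z) (2 * y * z)
      (x ^ 2 + y ^ 2 - z ^ 2) = z ^ 2 * qform (stereo k) x y z := fun x y z => by
    rw [cform_stereo, hK, hL0, hL1]; ring
  have hG : ∀ x y z : ℝ, 0 ≤ qform (stereo k) x y z := fun x y z => by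
    have hoff : ∀ t : ℝ, t ≠ 0 → 0 ≤ qform (stereo k) x y t := fun t ht => by
      have := hpar x y t
      rw [hval] at this
      exact nonneg_of_mul_nonneg_right this (by positivity)
    by_cases hz : z = 0
    · subst hz
      have hc : Continuous fun t : ℝ => qform (stereo k) x y t := by unfold qform; fun_prop
      exact ge_of_tendsto ((hc.tendsto 0).mono_left (nhdsWithin_le_nhds (s := {(0 : ℝ)}ᶜ)))
        (eventually_nhdsWithin_of_forall fun t ht => hoff t ht)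
    · exact hoff z hz
  obtain ⟨q, hq⟩ := quartic_sos (stereo k) hG
  have hre : ∑ j, ((q j 0 - q j 2) ^ 2 - q j 1 ^ 2) = 0 := by
    simp only [fun j => (sq_at_imag (q j)).1, Finset.sum_sub_distrib, Finset.sum_add_distrib,
      ← Finset.mul_sum, ← Finset.sum_div, ← hq]
    simp [qform, stereo]; ring
  have him : ∑ j, (q j 0 - q j 2) * q j 1 = 0 := by
    refine (mul_eq_zero.1 ?_).resolve_left (two_ne_zero (α := ℝ))
    rw [Finset.mul_sum]
    simp only [fun j => (sq_at_imag (q j)).2, Finset.sum_sub_distrib,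
      ← Finset.mul_sum, ← Finset.sum_div, ← hq]
    simp [qform, stereo]; ring
  obtain ⟨P, hP, hPsum⟩ : ∃ P : Fin 11 → (Fin 6 → ℝ) × (Fin 6 → ℝ),
      (∀ j, (P j).1 0 - (P j).1 2 - (P j).2 1 = 0 ∧ (P j).1 1 + (P j).2 0 - (P j).2 2 = 0) ∧
      ∀ x y z, ∑ j, (quad (P j).1 x y z ^ 2 + quad (P j).2 x y z ^ 2) =
        ∑ j, quad (q j) x y z ^ 2 := by
    set T := Real.sqrt (∑ j, (q j 0 - q j 2) ^ 2) with hT
    have hT2 : T ^ 2 = ∑ j, (q j 0 - q j 2) ^ 2 :=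
      Real.sq_sqrt (Finset.sum_nonneg fun j _ => sq_nonneg _)
    have hg2 : ∑ j, q j 1 ^ 2 = T ^ 2 := by
      rw [Finset.sum_sub_distrib] at hre; linarith
    by_cases hT0 : T = 0
    · have hb : ∀ j, q j 0 - q j 2 = 0 ∧ q j 1 = 0 := fun j => by
        have e1 := (Finset.sum_eq_zero_iff_of_nonneg fun i _ => sq_nonneg _).1
          (show ∑ i, (q i 0 - q i 2) ^ 2 = 0 by rw [← hT2, hT0]; norm_num) j (Finset.mem_univ j)
        have e2 := (Finset.sum_eq_zero_iff_of_nonneg fun i _ => sq_nonneg _).1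
          (show ∑ i, q i 1 ^ 2 = 0 by rw [hg2, hT0]; norm_num) j (Finset.mem_univ j)
        exact ⟨(pow_eq_zero_iff two_ne_zero).1 e1, (pow_eq_zero_iff two_ne_zero).1 e2⟩
      refine ⟨Fin.cons (0, 0) fun j => (q j, 0), fun j => ?_, fun x y z => ?_⟩
      · refine Fin.cases ?_ (fun i => ?_) j
        · simp
        · simp [hb i]
      · simp [Fin.sum_univ_succ (n := 10), quad]
    · set e1 : Fin 10 → ℝ := fun j => (q j 0 - q j 2) / T with he1
      set e2 : Fin 10 → ℝ := fun j => q j 1 / T with he2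
      have h11 : ∑ j, e1 j ^ 2 = 1 := by
        simp only [he1, div_pow, ← Finset.sum_div]; rw [← hT2, div_self (pow_ne_zero 2 hT0)]
      have h22 : ∑ j, e2 j ^ 2 = 1 := by
        simp only [he2, div_pow, ← Finset.sum_div]; rw [hg2, div_self (pow_ne_zero 2 hT0)]
      have h12 : ∑ j, e1 j * e2 j = 0 := by
        simp only [he1, he2, div_mul_div_comm, ← Finset.sum_div]; rw [him, zero_div]
      set A : Fin 6 → ℝ := fun i => ∑ j, e1 j * q j i with hA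
      set B : Fin 6 → ℝ := fun i => ∑ j, e2 j * q j i with hB
      have hA02 : A 0 - A 2 = T := by
        have : A 0 - A 2 = T * ∑ j, e1 j ^ 2 := by
          simp only [hA, ← Finset.sum_sub_distrib, Finset.mul_sum]
          refine Finset.sum_congr rfl fun j _ => ?_
          simp only [he1]; field_simp
        rw [this, h11, mul_one]
      have hB1 : B 1 = T := by
        have : B 1 = T * ∑ j, e2 j ^ 2 := by
          simp only [hB, Finset.mul_sum]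
          refine Finset.sum_congr rfl fun j _ => ?_
          simp only [he2]; field_simp
        rw [this, h22, mul_one]
      have hA1 : A 1 = 0 := by
        have : A 1 = T * ∑ j, e1 j * e2 j := by
          simp only [hA, Finset.mul_sum]
          refine Finset.sum_congr rfl fun j _ => ?_
          simp only [he2]; field_simp
        rw [this, h12, mul_zero]
      have hB02 : B 0 - B 2 = 0 := by
        have : B 0 - B 2 = T * ∑ j, e1 j * e2 j := by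
          simp only [hB, ← Finset.sum_sub_distrib, Finset.mul_sum]
          refine Finset.sum_congr rfl fun j _ => ?_
          simp only [he1]; field_simp
        rw [this, h12, mul_zero]
      refine ⟨Fin.cons (A, B) fun j => (fun i => q j i - A i * e1 j - B i * e2 j, 0),
        fun j => ?_, fun x y z => ?_⟩
      · refine Fin.cases ?_ (fun i => ?_) j
        · simp; constructor <;> linarith
        · have u1 : q i 0 - q i 2 = T * e1 i := by simp only [he1]; field_simp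
          have u2 : q i 1 = T * e2 i := by simp only [he2]; field_simp
          simp only [Fin.cons_succ, Pi.zero_apply]
          constructor
          · linear_combination u1 - e1 i * hA02 - e2 i * hB02
          · linear_combination u2 - e1 i * hA1 - e2 i * hB1
      · set Q : Fin 10 → ℝ := fun j => quad (q j) x y z with hQ
        have hAq : quad A x y z = ∑ j, e1 j * Q j := by
          simp only [hA, hQ, quad, Finset.sum_mul, ← Finset.sum_add_distrib]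
          exact Finset.sum_congr rfl fun j _ => by ring
        have hBq : quad B x y z = ∑ j, e2 j * Q j := by
          simp only [hB, hQ, quad, Finset.sum_mul, ← Finset.sum_add_distrib]
          exact Finset.sum_congr rfl fun j _ => by ring
        have hr : ∀ j, quad (fun i => q j i - A i * e1 j - B i * e2 j) x y z =
            Q j - quad A x y z * e1 j - quad B x y z * e2 j := fun j => by
          simp only [hQ, quad]; ring
        have hz : quad (0 : Fin 6 → ℝ) x y z = 0 := by simp [quad]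
        rw [Fin.sum_univ_succ]
        simp only [Fin.cons_zero, Fin.cons_succ, hr, hz]
        generalize quad A x y z = qa at hAq ⊢
        generalize quad B x y z = qb at hBq ⊢
        have : ∑ j, (Q j - qa * e1 j - qb * e2 j) ^ 2 =
            ∑ j, Q j ^ 2 + qa ^ 2 * ∑ j, e1 j ^ 2 + qb ^ 2 * ∑ j, e2 j ^ 2 -
              2 * qa * ∑ j, e1 j * Q j - 2 * qb * ∑ j, e2 j * Q j +
              2 * qa * qb * ∑ j, e1 j * e2 j := by
          simp only [Finset.mul_sum, ← Finset.sum_add_distrib, ← Finset.sum_sub_distrib]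
          exact Finset.sum_congr rfl fun j _ => by ring
        simp only [zero_pow two_ne_zero, add_zero, this, h11, h22, h12, ← hAq, ← hBq]
        ring
  set D : Fin 20 → ℝ := k - ∑ j, spinCoeff (liftSpinor (P j).1 (P j).2) with hD
  have hpar0 : ∀ x y z : ℝ, cform D (z ^ 2 + (x ^ 2 + y ^ 2)) (2 * x * z) (2 * y * z)
      (x ^ 2 + y ^ 2 - z ^ 2) = 0 := fun x y z => by
    rw [hD, cform_sub, cform_sum, hval, hq, ← hPsum, Finset.mul_sum, sub_eq_zero]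
    exact Finset.sum_congr rfl fun j _ => (spin_lift (hP j).1 (hP j).2 x y z).symm
  have hupper : ∀ u a b c : ℝ, u ^ 2 = a ^ 2 + b ^ 2 + c ^ 2 → 0 ≤ u → cform D u a b c = 0 := by
    intro u a b c he hu
    by_cases hc : u - c ≤ 0
    · have hab : a ^ 2 + b ^ 2 ≤ 0 := by nlinarith
      have ha : a = 0 := by nlinarith
      have hb : b = 0 := by nlinarith
      have hcu : c = u := by
        subst ha hb
        nlinarith
      subst ha hb hcu
      rw [hD, cform_sub, cform_sum]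
      simp only [spin_lift_pole, Finset.sum_const_zero, sub_zero]
      have : cform k c 0 0 c = c ^ 3 * cform k 1 0 0 1 := by simp [cform]; ring
      rw [this, h0, mul_zero]
    · push Not at hc
      set z := Real.sqrt ((u - c) / 2) with hz
      have hz2 : z ^ 2 = (u - c) / 2 := Real.sq_sqrt (by linarith)
      have hz0 : z ≠ 0 := (Real.sqrt_pos.2 (by linarith)).ne'
      have hr : (a / (2 * z)) ^ 2 + (b / (2 * z)) ^ 2 = (u + c) / 2 := by
        field_simp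
        linear_combination -he - 2 * (u + c) * hz2
      have := hpar0 (a / (2 * z)) (b / (2 * z)) z
      rwa [hr, hz2, show (u - c) / 2 + (u + c) / 2 = u by ring,
        show (u + c) / 2 - (u - c) / 2 = c by ring,
        show 2 * (a / (2 * z)) * z = a by field_simp,
        show 2 * (b / (2 * z)) * z = b by field_simp] at this
  refine ⟨fun j => liftSpinor (P j).1 (P j).2, ![D 0, D 1, D 2, D 3], fun u a b c => ?_⟩
  have hdiv := cform_divide D (fun u a b c he => by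
    by_cases hu : 0 ≤ u
    · exact hupper u a b c he hu
    · have := hupper (-u) (-a) (-b) (-c) (by linear_combination he) (by linarith)
      rw [cform_neg] at this
      linarith) u a b c
  rw [hD, cform_sub, cform_sum] at hdiv
  simp only [cform_spinCoeff] at hdiv
  simp only [Matrix.cons_val]
  rw [← hD] at hdiv
  linarith

end Vale.Agent.P256.Cubic
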