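import Mathlib

/-!
Nonnegative real polynomials in one variable are sums of two squares, and the binary consequences.
-/

namespace Vale.Agent.P256.Cubic

open Polynomial

/-- A nonnegative real polynomial of degree at most `2k` is a sum of two squares of polynomials of
degree at most `k`. -/
theorem nonneg_two_sq : ∀ (k : ℕ) (p : ℝ[X]), p.natDegree ≤ 2 * k → (∀ x, 0 ≤ p.eval x) →
    ∃ R S : ℝ[X], p = R ^ 2 + S ^ 2 ∧ R.natDegree ≤ k ∧ S.natDegree ≤ k := by
  intro k
  induction k with
  | zero =>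
    intro p hd hp
    obtain ⟨a, rfl⟩ : ∃ a, p = C a := ⟨p.coeff 0, eq_C_of_natDegree_le_zero (by omega)⟩
    refine ⟨C (Real.sqrt a), 0, ?_, by simp, by simp⟩
    have ha : 0 ≤ a := by simpa using hp 0
    rw [← C_pow, Real.sq_sqrt ha]
    simp
  | succ k ih =>
    intro p hd hp
    by_cases hk : p.natDegree ≤ 2 * k
    · obtain ⟨R, S, h, hR, hS⟩ := ih p hk hp
      exact ⟨R, S, h, by omega, by omega⟩
    have hdeg : 0 < p.natDegree := by omega
    have hp0 : p ≠ 0 := ne_zero_of_natDegree_gt hdeg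
    by_cases hroot : ∃ a, p.eval a = 0
    · obtain ⟨a, ha⟩ := hroot
      obtain ⟨g, hg⟩ := dvd_iff_isRoot.2 ha
      have hg0 : g.eval a = 0 := by
        have hlim : ∀ x, a < x → 0 ≤ g.eval x := fun x hx => by
          have := hp x
          rw [hg] at this
          simp at this
          exact nonneg_of_mul_nonneg_right (by simpa using this) (by linarith)
        have hlim' : ∀ x, x < a → g.eval x ≤ 0 := fun x hx => by
          have := hp x
          rw [hg] at this
          simp at this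
          nlinarith
        apply le_antisymm
        · exact le_of_tendsto ((g.continuous.tendsto a).mono_left (nhdsWithin_le_nhds (s := Set.Iio a)))
            (eventually_nhdsWithin_of_forall fun x hx => hlim' x hx)
        · exact ge_of_tendsto ((g.continuous.tendsto a).mono_left (nhdsWithin_le_nhds (s := Set.Ioi a)))
            (eventually_nhdsWithin_of_forall fun x hx => hlim x hx)
      obtain ⟨q, hq⟩ := dvd_iff_isRoot.2 hg0
      subst hq
      have hpq : p = (X - C a) ^ 2 * q := by rw [hg]; ring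
      have hq0 : q ≠ 0 := fun h => hp0 (by simp [hpq, h])
      have hdq : q.natDegree ≤ 2 * k := by
        have := natDegree_mul (pow_ne_zero 2 (X_sub_C_ne_zero a)) hq0
        rw [← hpq, natDegree_pow, natDegree_X_sub_C] at this
        omega
      have hqn : ∀ x, 0 ≤ q.eval x := by
        have hoff : ∀ x, x ≠ a → 0 ≤ q.eval x := fun x hx => by
          have := hp x
          rw [hpq] at this
          simp at this
          exact nonneg_of_mul_nonneg_right this (by positivity [sub_ne_zero.2 hx])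
        intro x
        by_cases hx : x = a
        · subst hx
          exact ge_of_tendsto ((q.continuous.tendsto x).mono_left (nhdsWithin_le_nhds (s := {x}ᶜ)))
            (eventually_nhdsWithin_of_forall fun y hy => hoff y hy)
        · exact hoff x hx
      obtain ⟨R, S, h, hR, hS⟩ := ih q hdq hqn
      refine ⟨(X - C a) * R, (X - C a) * S, by rw [hpq, h]; ring, ?_, ?_⟩ <;>
      · refine natDegree_mul_le.trans ?_
        rw [natDegree_X_sub_C]
        omega
    · obtain ⟨z, hz⟩ := IsAlgClosed.exists_aeval_eq_zero ℂ p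
        (natDegree_pos_iff_degree_pos.1 hdeg).ne'
      have him : z.im ≠ 0 := fun h => hroot ⟨z.re, by
        have hzr : z = algebraMap ℝ ℂ z.re := by apply Complex.ext <;> simp [h]
        rw [hzr, aeval_algebraMap_apply] at hz
        simpa using hz⟩
      obtain ⟨q, hq⟩ := p.quadratic_dvd_of_aeval_eq_zero_im_ne_zero hz him
      have hfac : (X ^ 2 - C (2 * z.re) * X + C (‖z‖ ^ 2) : ℝ[X]) =
          (X - C z.re) ^ 2 + C z.im ^ 2 := by
        rw [← Complex.normSq_eq_norm_sq, Complex.normSq_apply]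
        simp only [map_add, map_mul, map_ofNat]
        ring
      rw [hfac] at hq
      have hfd : ((X - C z.re) ^ 2 + C z.im ^ 2).natDegree = 2 := by
        rw [← C_pow, natDegree_add_C, natDegree_pow, natDegree_X_sub_C]
      have hq0 : q ≠ 0 := fun h => hp0 (by simp [hq, h])
      have hdq : q.natDegree ≤ 2 * k := by
        have := natDegree_mul (ne_zero_of_natDegree_gt (n := 1) (by rw [hfd]; norm_num)) hq0
        rw [← hq, hfd] at this
        omega
      have hqn : ∀ x, 0 ≤ q.eval x := fun x => by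
        have := hp x
        rw [hq] at this
        simp at this
        exact nonneg_of_mul_nonneg_right this (by positivity)
      obtain ⟨R, S, h, hR, hS⟩ := ih q hdq hqn
      refine ⟨(X - C z.re) * R + C z.im * S, (X - C z.re) * S - C z.im * R,
        by rw [hq, h]; ring, ?_, ?_⟩
      · refine (natDegree_add_le _ _).trans (max_le ?_ ?_)
        · exact natDegree_mul_le.trans (by rw [natDegree_X_sub_C]; omega)
        · exact (natDegree_C_mul_le _ _).trans (by omega)
      · refine (natDegree_sub_le _ _).trans (max_le ?_ ?_)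
        · exact natDegree_mul_le.trans (by rw [natDegree_X_sub_C]; omega)
        · exact (natDegree_C_mul_le _ _).trans (by omega)

/-- A nonnegative binary quartic is a sum of two squares of binary quadratics. -/
theorem binary_quartic (d0 d1 d2 d3 d4 : ℝ)
    (h : ∀ x y : ℝ, 0 ≤ d4 * x ^ 4 + d3 * x ^ 3 * y + d2 * x ^ 2 * y ^ 2 + d1 * x * y ^ 3 +
      d0 * y ^ 4) :
    ∃ a b c a' b' c' : ℝ, ∀ x y : ℝ,
      d4 * x ^ 4 + d3 * x ^ 3 * y + d2 * x ^ 2 * y ^ 2 + d1 * x * y ^ 3 + d0 * y ^ 4 =
        (a * x ^ 2 + b * x * y + c * y ^ 2) ^ 2 + (a' * x ^ 2 + b' * x * y + c' * y ^ 2) ^ 2 := by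
  obtain ⟨R, S, he, hR, hS⟩ := nonneg_two_sq 2
    (C d4 * X ^ 4 + C d3 * X ^ 3 + C d2 * X ^ 2 + C d1 * X + C d0)
    (by compute_degree!) (fun x => by simpa using h x 1)
  have hev : ∀ x : ℝ, d4 * x ^ 4 + d3 * x ^ 3 + d2 * x ^ 2 + d1 * x + d0 =
      (R.coeff 2 * x ^ 2 + R.coeff 1 * x + R.coeff 0) ^ 2 +
        (S.coeff 2 * x ^ 2 + S.coeff 1 * x + S.coeff 0) ^ 2 := fun x => by
    have := congrArg (eval x) he
    simp at this
    rw [this, eval_eq_sum_range' (n := 3) (show R.natDegree < 3 by omega),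
      eval_eq_sum_range' (n := 3) (show S.natDegree < 3 by omega)]
    simp [Finset.sum_range_succ]
    ring
  refine ⟨R.coeff 2, R.coeff 1, R.coeff 0, S.coeff 2, S.coeff 1, S.coeff 0, fun x y => ?_⟩
  by_cases hy : y = 0
  · subst hy
    have h0 := hev 0
    have h1 := hev 1
    have h2 := hev (-1)
    have h3 := hev 2
    have h4 := hev (-2)
    have : d4 = R.coeff 2 ^ 2 + S.coeff 2 ^ 2 := by
      linear_combination (1 / 4) * h0 - (1 / 6) * h1 - (1 / 6) * h2 + (1 / 24) * h3 + (1 / 24) * h4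
    linear_combination x ^ 4 * this
  · have := hev (x / y)
    field_simp at this
    linear_combination this

/-- A nonnegative binary sextic is a sum of two squares of binary cubics. -/
theorem binary_sextic (d0 d1 d2 d3 d4 d5 d6 : ℝ)
    (h : ∀ x y : ℝ, 0 ≤ d6 * x ^ 6 + d5 * x ^ 5 * y + d4 * x ^ 4 * y ^ 2 + d3 * x ^ 3 * y ^ 3 +
      d2 * x ^ 2 * y ^ 4 + d1 * x * y ^ 5 + d0 * y ^ 6) :
    ∃ R S : Fin 4 → ℝ, ∀ x y : ℝ,
      d6 * x ^ 6 + d5 * x ^ 5 * y + d4 * x ^ 4 * y ^ 2 + d3 * x ^ 3 * y ^ 3 +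
        d2 * x ^ 2 * y ^ 4 + d1 * x * y ^ 5 + d0 * y ^ 6 =
      (R 3 * x ^ 3 + R 2 * x ^ 2 * y + R 1 * x * y ^ 2 + R 0 * y ^ 3) ^ 2 +
        (S 3 * x ^ 3 + S 2 * x ^ 2 * y + S 1 * x * y ^ 2 + S 0 * y ^ 3) ^ 2 := by
  obtain ⟨R, S, he, hR, hS⟩ := nonneg_two_sq 3
    (C d6 * X ^ 6 + C d5 * X ^ 5 + C d4 * X ^ 4 + C d3 * X ^ 3 + C d2 * X ^ 2 + C d1 * X + C d0)
    (by compute_degree!) (fun x => by simpa using h x 1)
  have hev : ∀ x : ℝ, d6 * x ^ 6 + d5 * x ^ 5 + d4 * x ^ 4 + d3 * x ^ 3 + d2 * x ^ 2 + d1 * x + d0 =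
      (R.coeff 3 * x ^ 3 + R.coeff 2 * x ^ 2 + R.coeff 1 * x + R.coeff 0) ^ 2 +
        (S.coeff 3 * x ^ 3 + S.coeff 2 * x ^ 2 + S.coeff 1 * x + S.coeff 0) ^ 2 := fun x => by
    have := congrArg (eval x) he
    simp at this
    rw [this, eval_eq_sum_range' (n := 4) (show R.natDegree < 4 by omega),
      eval_eq_sum_range' (n := 4) (show S.natDegree < 4 by omega)]
    simp [Finset.sum_range_succ]
    ring
  refine ⟨![R.coeff 0, R.coeff 1, R.coeff 2, R.coeff 3],
    ![S.coeff 0, S.coeff 1, S.coeff 2, S.coeff 3], fun x y => ?_⟩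
  by_cases hy : y = 0
  · subst hy
    have : d6 = R.coeff 3 ^ 2 + S.coeff 3 ^ 2 := by
      linear_combination (-1 / 36) * hev 0 + (1 / 48) * hev 1 + (1 / 48) * hev (-1)
        - (1 / 120) * hev 2 - (1 / 120) * hev (-2) + (1 / 720) * hev 3 + (1 / 720) * hev (-3)
    simp
    linear_combination x ^ 6 * this
  · have := hev (x / y)
    field_simp at this
    simp
    linear_combination this

end Vale.Agent.P256.Cubic
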